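import Mathlib

/-! P262, bound `√(d log d)`: parameters and invariants of the recursion. -/

namespace P262L

open Finset

/-- Parameters of the recursion in dimension `d`. -/
structure Par (d : ℕ) where
  K : ℕ
  J' : ℕ
  b0 : ℝ
  Lam : ℝ

namespace Par
variable {d : ℕ} (P : Par d)

/-- number of linear functionals kept by the vertex lemma -/
def m (_ : Par d) : ℕ := d ^ 2 + d + 1
/-- bound for the number of new heavy vectors -/
def h : ℕ := 20 * P.m * (d + 1)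
def CQ : ℝ := 2 * (P.h : ℝ) + 4 * (P.m : ℝ)
def C1 : ℝ := P.CQ + P.h
def nF : ℝ := (P.m : ℝ) + 2 * (P.h : ℝ) + P.K
def J : ℕ := P.K + 1 + P.J'

/-- increment of the budget of a coordinate -/
noncomputable def gg (j : ℕ) : ℝ := if j < P.J + 1 then 1 else (4 / 5 : ℝ) ^ (j - (P.J + 1))

/-- budget of a coordinate `j` levels after it became short -/
noncomputable def bt : ℕ → ℝ
  | 0 => 0
  | (j + 1) => bt j + P.gg j

/-- the requirements on the parameters -/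
structure Good : Prop where
  hK : P.h < 2 ^ P.K
  hK1 : 1 ≤ P.K
  hb0 : 2000 * ((d : ℝ) * (P.J + 6)) + 1158 * d ≤ P.b0 ^ 2
  hb1 : 30 * ((d : ℝ) + 1) ≤ P.b0
  hL0 : 0 < P.Lam
  hL1 : 64 * P.b0 * (d + 1) ≤ P.Lam
  hL2 : 4 * P.C1 ≤ P.Lam
  hL3 : (16 * P.b0 + P.C1) * d * (1 + 2 * P.b0 ^ 2 * d) * (8 * P.b0) ≤ P.Lam
  hL4 : 2 * P.b0 ^ 2 * d ^ 2 ≤ P.Lam
  hJ : ((4 * P.b0 + 1) * (2 * P.nF + 2)) ^ 2 * (2 * P.Lam) * (3 / 5 : ℝ) ^ P.J' ≤ 1

lemma gg_pos (j : ℕ) : 0 < P.gg j := by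
  unfold gg; split_ifs <;> positivity

lemma bt_le (j : ℕ) :
    P.bt j ≤ (min j (P.J + 1) : ℕ) + 5 * (1 - (4 / 5 : ℝ) ^ (j - (P.J + 1))) := by
  induction j with
  | zero => simp [bt]
  | succ j ih =>
    rw [bt, gg]
    by_cases hj : j < P.J + 1
    · rw [if_pos hj]
      have e1 : min j (P.J + 1) = j := by omega
      have e2 : min (j + 1) (P.J + 1) = j + 1 := by omega
      have e3 : j - (P.J + 1) = 0 := by omega
      have e4 : j + 1 - (P.J + 1) = 0 := by omega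
      rw [e1, e3] at ih
      rw [e2, e4]
      push_cast
      simp only [pow_zero] at ih ⊢
      linarith
    · rw [if_neg hj]
      have e1 : min j (P.J + 1) = P.J + 1 := by omega
      have e2 : min (j + 1) (P.J + 1) = P.J + 1 := by omega
      have e4 : j + 1 - (P.J + 1) = (j - (P.J + 1)) + 1 := by omega
      rw [e1] at ih
      rw [e2, e4, pow_succ]
      linarith

lemma bt_le' (j : ℕ) : P.bt j ≤ P.J + 6 := by
  have h1 := P.bt_le j
  have h2 : ((min j (P.J + 1) : ℕ) : ℝ) ≤ P.J + 1 := by exact_mod_cast min_le_right _ _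
  have h3 : (0:ℝ) ≤ (4 / 5 : ℝ) ^ (j - (P.J + 1)) := by positivity
  linarith

lemma bt_nonneg (j : ℕ) : 0 ≤ P.bt j := by
  induction j with
  | zero => simp [bt]
  | succ j ih => rw [bt]; linarith [P.gg_pos j]

/-- global budget at level `l` -/
noncomputable def BB (lv : Fin d → ℕ) (l : ℕ) : ℝ := 2000 * ∑ k, P.bt (l + 1 - lv k)

lemma BB_le (lv : Fin d → ℕ) (l : ℕ) : P.BB lv l ≤ 2000 * ((d : ℝ) * (P.J + 6)) := by
  unfold BB
  apply mul_le_mul_of_nonneg_left _ (by norm_num)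
  calc ∑ k, P.bt (l + 1 - lv k) ≤ ∑ k : Fin d, ((P.J : ℝ) + 6) :=
        Finset.sum_le_sum fun k _ => P.bt_le' _
    _ = (d : ℝ) * (P.J + 6) := by
        rw [Finset.sum_const, Finset.card_univ, Fintype.card_fin, nsmul_eq_mul]

lemma BB_nonneg (lv : Fin d → ℕ) (l : ℕ) : 0 ≤ P.BB lv l := by
  unfold BB
  exact mul_nonneg (by norm_num) (Finset.sum_nonneg fun k _ => P.bt_nonneg _)

/-- active or entering coordinates at level `l` -/
def Q0 (lv : Fin d → ℕ) (l : ℕ) : Finset (Fin d) :=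
  Finset.univ.filter (fun k => lv k ≤ l + 1 ∧ l < lv k + P.J)

/-- dead coordinates at level `l` -/
def Dd (lv : Fin d → ℕ) (l : ℕ) : Finset (Fin d) :=
  Finset.univ.filter (fun k => lv k + P.J ≤ l)

lemma BB_succ (lv : Fin d → ℕ) (l : ℕ) :
    P.BB lv (l + 1) = P.BB lv l + 2000 * ((P.Q0 lv l).card : ℝ) +
      2000 * ∑ k ∈ P.Dd lv l, (4 / 5 : ℝ) ^ (l - lv k - P.J) := by
  unfold BB
  have h1 : ∀ k, P.bt (l + 1 + 1 - lv k) = P.bt (l + 1 - lv k) +
      ((if lv k ≤ l + 1 ∧ l < lv k + P.J then (1:ℝ) else 0) +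
       (if lv k + P.J ≤ l then (4 / 5 : ℝ) ^ (l - lv k - P.J) else 0)) := by
    intro k
    by_cases h2 : lv k ≤ l + 1
    · have e : l + 1 + 1 - lv k = (l + 1 - lv k) + 1 := by omega
      rw [e, bt, gg]
      congr 1
      by_cases h3 : l < lv k + P.J
      · rw [if_pos (by omega), if_pos ⟨h2, h3⟩, if_neg (by omega), add_zero]
      · rw [if_neg (by omega), if_neg (by omega), if_pos (by omega), zero_add]
        congr 1
        omega
    · have e : l + 1 + 1 - lv k = l + 1 - lv k := by omega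
      rw [e, if_neg (by omega), if_neg (by omega)]
      ring
  have h2 : ∑ k, P.bt (l + 1 + 1 - lv k) = ∑ k, P.bt (l + 1 - lv k) +
      (((P.Q0 lv l).card : ℝ) + ∑ k ∈ P.Dd lv l, (4 / 5 : ℝ) ^ (l - lv k - P.J)) := by
    rw [Finset.sum_congr rfl (fun k _ => h1 k), Finset.sum_add_distrib, Finset.sum_add_distrib]
    congr 1
    congr 1
    · rw [Q0, Finset.card_filter]
      push_cast
      rfl
    · rw [Dd, Finset.sum_filter]
  rw [h2]; ring

lemma BB_mono_succ (lv : Fin d → ℕ) (l : ℕ) :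
    P.BB lv l + 2000 * ((P.Q0 lv l).card : ℝ) ≤ P.BB lv (l + 1) := by
  rw [P.BB_succ]
  have : 0 ≤ ∑ k ∈ P.Dd lv l, (4 / 5 : ℝ) ^ (l - lv k - P.J) :=
    Finset.sum_nonneg fun _ _ => by positivity
  linarith

end Par

variable {d : ℕ} {ι : Type} [DecidableEq ι]

/-- accumulated relative tilt up to level `l` -/
noncomputable def dl (P : Par d) (lam : Fin d → ℝ) (l : ℕ) : ℝ :=
  8 * P.b0 * ∑ k, min ((2 : ℝ) ^ l / lam k) (2 / P.Lam)

/-- weight used for termination -/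
def wt (P : Par d) (a : ℕ) : ℕ := if a = 0 then P.K + 3 else P.K + 2 - a

/-- Invariants of an interval `S` of level `l` with ages `age`. -/
structure InvS (P : Par d) (v : ι → Fin d → ℝ) (lam : Fin d → ℝ) (lv : Fin d → ℕ)
    (l : ℕ) (S : Finset ι) (age : ι → ℕ) : Prop where
  age_le : ∀ i ∈ S, age i ≤ P.K + 1
  cls : ∀ j, 1 ≤ j → j ≤ P.K →
    ((S.filter (fun i => age i = j)).card : ℝ) ≤ (P.h : ℝ) / 2 ^ j + 1
  pool : (S.filter (fun i => age i = P.K + 1)).card ≤ 2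
  close : ∀ u : Fin d → ℝ,
    |∑ i ∈ S.filter (fun i => age i = 0), (∑ k, v i k * u k) ^ 2
        - ∑ k, lam k / 2 ^ l * (u k) ^ 2| ≤
      dl P lam l * ∑ k, lam k / 2 ^ l * (u k) ^ 2 + P.CQ * ∑ k, (u k) ^ 2
  short : ∀ k, lv k ≤ l →
    ∑ i ∈ S.filter (fun i => age i = 0), (v i k) ^ 2 ≤ 2 * P.Lam * (3 / 5 : ℝ) ^ (l - lv k)
  heavy : ∀ i ∈ S, 1 ≤ age i → age i ≤ P.K → ∀ k, lv k + age i ≤ l →
    (v i k) ^ 2 ≤ 2 * P.Lam * (3 / 5 : ℝ) ^ (l - age i - lv k)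

/-- bound of an end point `a` of an interval with `p` old heavy vectors -/
def BdE (P : Par d) (lv : Fin d → ℕ) (l : ℕ) (p : ℕ) (a : Fin d → ℝ) : Prop :=
  ∀ l', l ≤ l' → ∑ k ∈ Finset.univ.filter (fun k => lv k ≤ l'), (a k) ^ 2 + p ≤
    P.BB lv l + 1158 * ((Finset.univ.filter (fun k => l < lv k ∧ lv k ≤ l')).card : ℝ)

end P262L
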