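import Vale.Agent.P262L.KMove

/-! P262, second result, module M2: rounding adapted to a flag of coordinate sets. -/

namespace P262L

open scoped BigOperators

/-- the number of fractional coordinates -/
noncomputable def nfrac {ι : Type} (G : Finset ι) (z : ι → ℝ) : ℕ := by
  classical exact (G.filter (fun i => z i ≠ 0 ∧ z i ≠ 1)).card

theorem nfrac_eq {ι : Type} [DecidableEq ι] (G : Finset ι) (z : ι → ℝ) :
    nfrac G z = (G.filter (fun i => z i ≠ 0 ∧ z i ≠ 1)).card := by
  unfold nfrac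
  congr

/-- round the fractional coordinates one after the other, with nonpositive cross terms. -/
theorem round_few {ι : Type} [DecidableEq ι] (d : ℕ)
    (G : Finset ι) (u : ι → Fin d → ℝ) (hu : ∀ i ∈ G, ∑ k, (u i k) ^ 2 ≤ 4)
    (Q0 : Finset (Fin d)) : ∀ (m : ℕ) (z : ι → ℝ) (v : Fin d → ℝ),
    (∀ i ∈ G, 0 ≤ z i ∧ z i ≤ 1) → nfrac G z ≤ m →
    ∃ y : ι → ℝ, (∀ i ∈ G, y i = 0 ∨ y i = 1) ∧ (∀ i ∈ G, z i = 0 ∨ z i = 1 → y i = z i) ∧
      ∑ k ∈ Q0, (v k + ∑ i ∈ G, (y i - z i) * u i k) ^ 2 ≤ ∑ k ∈ Q0, (v k) ^ 2 + 4 * m := by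
  intro m
  induction m with
  | zero =>
    intro z v hz hm
    refine ⟨z, ?_, fun _ _ _ => rfl, by simp⟩
    intro i hi
    rw [nfrac_eq] at hm
    have h1 : (G.filter (fun i => z i ≠ 0 ∧ z i ≠ 1)) = ∅ := Finset.card_eq_zero.1 (by omega)
    by_contra hcon
    push Not at hcon
    have : i ∈ (G.filter (fun i => z i ≠ 0 ∧ z i ≠ 1)) := Finset.mem_filter.2 ⟨hi, hcon⟩
    rw [h1] at this
    simp at this
  | succ m ih =>
    intro z v hz hm
    rw [nfrac_eq] at hm
    by_cases hF : (G.filter (fun i => z i ≠ 0 ∧ z i ≠ 1)).Nonempty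
    swap
    · rw [Finset.not_nonempty_iff_eq_empty] at hF
      obtain ⟨y, h1, h2, h3⟩ := ih z v hz (by rw [nfrac_eq, hF]; simp)
      refine ⟨y, h1, h2, h3.trans ?_⟩
      push_cast; linarith
    obtain ⟨i0, hi0⟩ := hF
    have hi0' := Finset.mem_filter.1 hi0
    obtain ⟨hi0G, hi0a, hi0b⟩ := hi0'
    -- choose the value
    obtain ⟨a, ha01, haz, hac⟩ : ∃ a : ℝ, (a = 0 ∨ a = 1) ∧ (a - z i0) ^ 2 ≤ 1 ∧
        (a - z i0) * ∑ k ∈ Q0, v k * u i0 k ≤ 0 := by
      have h1 := hz i0 hi0G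
      rcases le_total 0 (∑ k ∈ Q0, v k * u i0 k) with h | h
      · exact ⟨0, Or.inl rfl, by nlinarith, by nlinarith⟩
      · exact ⟨1, Or.inr rfl, by nlinarith, by nlinarith⟩
    set z' : ι → ℝ := Function.update z i0 a with hz'
    set v' : Fin d → ℝ := fun k => v k + (a - z i0) * u i0 k with hv'
    have hz'i0 : z' i0 = a := by rw [hz', Function.update_self]
    have hz'ne : ∀ i, i ≠ i0 → z' i = z i := fun i hi => by rw [hz', Function.update_of_ne hi]
    have hz'01 : ∀ i ∈ G, 0 ≤ z' i ∧ z' i ≤ 1 := by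
      intro i hi
      by_cases h : i = i0
      · rw [h, hz'i0]
        rcases ha01 with h' | h' <;> rw [h'] <;> norm_num
      · rw [hz'ne i h]; exact hz i hi
    have hm' : nfrac G z' ≤ m := by
      rw [nfrac_eq]
      have hsub : (G.filter (fun i => z' i ≠ 0 ∧ z' i ≠ 1)) ⊆
          (G.filter (fun i => z i ≠ 0 ∧ z i ≠ 1)).erase i0 := by
        intro i hi
        rw [Finset.mem_filter] at hi
        rw [Finset.mem_erase, Finset.mem_filter]
        have hne : i ≠ i0 := by
          rintro rfl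
          rw [hz'i0] at hi
          rcases ha01 with h | h
          · exact hi.2.1 h
          · exact hi.2.2 h
        rw [hz'ne i hne] at hi
        exact ⟨hne, hi⟩
      have h1 := Finset.card_le_card hsub
      rw [Finset.card_erase_of_mem hi0] at h1
      omega
    obtain ⟨y, hy1, hy2, hy3⟩ := ih z' v' hz'01 hm'
    refine ⟨y, hy1, ?_, ?_⟩
    · intro i hi hzi
      have hne : i ≠ i0 := by
        rintro rfl
        rcases hzi with h | h
        · exact hi0a h
        · exact hi0b h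
      have := hy2 i hi (by rw [hz'ne i hne]; exact hzi)
      rw [this, hz'ne i hne]
    · have e1 : ∀ k, v' k + ∑ i ∈ G, (y i - z' i) * u i k =
          v k + ∑ i ∈ G, (y i - z i) * u i k := by
        intro k
        have e2 : ∑ i ∈ G, (y i - z i) * u i k =
            ∑ i ∈ G, (y i - z' i) * u i k + ∑ i ∈ G, (z' i - z i) * u i k := by
          rw [← Finset.sum_add_distrib]
          refine Finset.sum_congr rfl fun i _ => ?_
          ring
        have e3 : ∑ i ∈ G, (z' i - z i) * u i k = (a - z i0) * u i0 k := by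
          rw [Finset.sum_eq_single i0]
          · rw [hz'i0]
          · intro i _ hne
            rw [hz'ne i hne]; ring
          · intro h; exact absurd hi0G h
        rw [e2, e3]
        simp only [hv']; ring
      simp_rw [e1] at hy3
      refine hy3.trans ?_
      have e4 : ∑ k ∈ Q0, (v' k) ^ 2 = ∑ k ∈ Q0, (v k) ^ 2 +
          2 * ((a - z i0) * ∑ k ∈ Q0, v k * u i0 k) + (a - z i0) ^ 2 * ∑ k ∈ Q0, (u i0 k) ^ 2 := by
        rw [Finset.mul_sum, Finset.mul_sum, Finset.mul_sum, ← Finset.sum_add_distrib,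
          ← Finset.sum_add_distrib]
        refine Finset.sum_congr rfl fun k _ => ?_
        simp only [hv']; ring
      have e5 : ∑ k ∈ Q0, (u i0 k) ^ 2 ≤ 4 :=
        (Finset.sum_le_sum_of_subset_of_nonneg (Finset.subset_univ _)
          (fun _ _ _ => sq_nonneg _)).trans (hu i0 hi0G)
      have e6 : 0 ≤ ∑ k ∈ Q0, (u i0 k) ^ 2 := Finset.sum_nonneg fun _ _ => sq_nonneg _
      have e7 : (a - z i0) ^ 2 * ∑ k ∈ Q0, (u i0 k) ^ 2 ≤ 4 := by nlinarith [sq_nonneg (a - z i0)]
      rw [e4]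
      push_cast
      linarith

/-- bound for the norm of the rounding error -/
theorem round_norm {ι : Type} [DecidableEq ι] (d : ℕ)
    (G : Finset ι) (u : ι → Fin d → ℝ) (hu : ∀ i ∈ G, ∑ k, (u i k) ^ 2 ≤ 4) (m : ℕ)
    (z y : ι → ℝ) (hz : ∀ i ∈ G, 0 ≤ z i ∧ z i ≤ 1) (hy : ∀ i ∈ G, y i = 0 ∨ y i = 1)
    (hyz : ∀ i ∈ G, z i = 0 ∨ z i = 1 → y i = z i) (hm : nfrac G z ≤ m) :
    ∑ k, (∑ i ∈ G, (y i - z i) * u i k) ^ 2 ≤ 4 * (m : ℝ) ^ 2 := by
  rw [nfrac_eq] at hm
  set F := G.filter (fun i => z i ≠ 0 ∧ z i ≠ 1) with hF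
  have h1 : ∀ k, ∑ i ∈ G, (y i - z i) * u i k = ∑ i ∈ F, (y i - z i) * u i k := by
    intro k
    symm
    apply Finset.sum_subset (Finset.filter_subset _ _)
    intro i hi hiF
    have : z i = 0 ∨ z i = 1 := by
      by_contra hcon
      push Not at hcon
      exact hiF (Finset.mem_filter.2 ⟨hi, hcon⟩)
    rw [hyz i hi this]; ring
  simp_rw [h1]
  have h2 : ∀ k, (∑ i ∈ F, (y i - z i) * u i k) ^ 2 ≤ (F.card : ℝ) * ∑ i ∈ F, (u i k) ^ 2 := by
    intro k
    refine (sq_sum_le_card_mul_sum_sq (s := F) (f := fun i => (y i - z i) * u i k)).trans ?_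
    apply mul_le_mul_of_nonneg_left _ (Nat.cast_nonneg _)
    apply Finset.sum_le_sum
    intro i hi
    have hiG := (Finset.mem_filter.1 hi).1
    have h3 := hz i hiG
    have h4 : (y i - z i) ^ 2 ≤ 1 := by
      rcases hy i hiG with h | h <;> rw [h] <;> nlinarith
    rw [mul_pow]
    nlinarith [sq_nonneg (u i k)]
  calc ∑ k, (∑ i ∈ F, (y i - z i) * u i k) ^ 2 ≤ ∑ k, (F.card : ℝ) * ∑ i ∈ F, (u i k) ^ 2 :=
        Finset.sum_le_sum fun k _ => h2 k
    _ = (F.card : ℝ) * ∑ i ∈ F, ∑ k, (u i k) ^ 2 := by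
        rw [← Finset.mul_sum, Finset.sum_comm]
    _ ≤ (F.card : ℝ) * ∑ _i ∈ F, (4 : ℝ) := by
        apply mul_le_mul_of_nonneg_left _ (Nat.cast_nonneg _)
        exact Finset.sum_le_sum fun i hi => hu i (Finset.mem_filter.1 hi).1
    _ = 4 * (F.card : ℝ) ^ 2 := by rw [Finset.sum_const, nsmul_eq_mul]; ring
    _ ≤ 4 * (m : ℝ) ^ 2 := by
        have : (F.card : ℝ) ≤ m := by exact_mod_cast hm
        gcongr

/-- the error of a kernel move is small -/
theorem kmove_zero {ι C : Type} [DecidableEq ι] [Fintype C] (d : ℕ)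
    (W : Finset ι) (x : ι → ℝ) (hx : ∀ i ∈ W, 0 ≤ x i ∧ x i ≤ 1)
    (u : ι → Fin d → ℝ) (hu : ∀ i ∈ W, ∑ k, (u i k) ^ 2 ≤ 4) (f : ι → C → ℝ) (r : ℕ)
    (hr : nfrac W x ≤ r) :
    ∃ z : ι → ℝ, (∀ i ∈ W, 0 ≤ z i ∧ z i ≤ 1) ∧
      (∀ i ∈ W, x i = 0 ∨ x i = 1 → z i = x i) ∧
      (∀ c, ∑ i ∈ W, (z i - x i) * f i c = 0) ∧
      nfrac W z ≤ 2 * Fintype.card C ∧
      ∑ k, (∑ i ∈ W, (z i - x i) * u i k) ^ 2 ≤ 8 * r := by
  obtain ⟨z, h1, h2, h3, h4, h5⟩ := kmove d W x hx u hu f (fun _ => 0)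
  refine ⟨z, h1, h2, ?_, by rw [nfrac_eq]; exact h4, ?_⟩
  · intro c
    have := h3 c
    simp only [sub_mul, Finset.sum_sub_distrib]
    linarith
  · have h6 : ∑ i ∈ W, (z i) ^ 2 - ∑ i ∈ W, (x i) ^ 2 ≤ r := by
      rw [← Finset.sum_sub_distrib]
      have h7 : ∑ i ∈ W, ((z i) ^ 2 - (x i) ^ 2) ≤
          ∑ i ∈ W, (if x i ≠ 0 ∧ x i ≠ 1 then (1 : ℝ) else 0) := by
        apply Finset.sum_le_sum
        intro i hi
        split_ifs with h
        · have := h1 i hi
          nlinarith [sq_nonneg (x i)]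
        · rw [h2 i hi (by
            by_contra hcon
            push Not at hcon
            exact h hcon)]
          linarith
      refine h7.trans ?_
      rw [← Finset.sum_filter, Finset.sum_const, nsmul_eq_mul, mul_one]
      rw [nfrac_eq] at hr
      exact_mod_cast hr
    simp only [zero_add, ne_eq, OfNat.ofNat_ne_zero, not_false_eq_true, zero_pow,
      Finset.sum_const_zero, sub_zero] at h5
    linarith

theorem flag_round {ι : Type} [DecidableEq ι] (d : ℕ)
    (G : Finset ι) (x : ι → ℝ) (hx : ∀ i ∈ G, 0 ≤ x i ∧ x i ≤ 1)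
    (u : ι → Fin d → ℝ) (hu : ∀ i ∈ G, ∑ k, (u i k) ^ 2 ≤ 4)
    (Q : ℕ → Finset (Fin d)) (hQ : Monotone Q) (s : Fin d → ℝ) :
    ∃ y : ι → ℝ, (∀ i ∈ G, y i = 0 ∨ y i = 1) ∧
      (∀ j, ∑ k ∈ Q j, (∑ i ∈ G, (y i - x i) * u i k) ^ 2 ≤ 384 * (Q j).card) ∧
      ∑ k ∈ Q 0, (s k + ∑ i ∈ G, (y i - x i) * u i k) ^ 2 ≤
        ∑ k ∈ Q 0, (s k) ^ 2 + 64 * (Q 0).card := by
  classical
  suffices H : ∀ (r : ℕ) (x : ι → ℝ), (∀ i ∈ G, 0 ≤ x i ∧ x i ≤ 1) → nfrac G x ≤ r →
      ∃ y : ι → ℝ, (∀ i ∈ G, y i = 0 ∨ y i = 1) ∧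
      (∀ j, ∑ k ∈ Q j, (∑ i ∈ G, (y i - x i) * u i k) ^ 2 ≤
        96 * ((min (4 * (Q j).card) r : ℕ) : ℝ)) ∧
      ∑ k ∈ Q 0, (s k + ∑ i ∈ G, (y i - x i) * u i k) ^ 2 ≤
        ∑ k ∈ Q 0, (s k) ^ 2 + 16 * ((min r (4 * (Q 0).card) : ℕ) : ℝ) by
    obtain ⟨y, h1, h2, h3⟩ := H _ x hx le_rfl
    refine ⟨y, h1, fun j => (h2 j).trans ?_, h3.trans ?_⟩
    · have : ((min (4 * (Q j).card) (nfrac G x) : ℕ) : ℝ) ≤ ((4 * (Q j).card : ℕ) : ℝ) :=
        Nat.cast_le.2 (min_le_left _ _)
      push_cast at this ⊢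
      linarith
    · have : ((min (nfrac G x) (4 * (Q 0).card) : ℕ) : ℝ) ≤ ((4 * (Q 0).card : ℕ) : ℝ) :=
        Nat.cast_le.2 (min_le_right _ _)
      push_cast at this ⊢
      linarith
  intro r
  induction r using Nat.strong_induction_on with
  | _ r ih =>
    intro x hx hr
    have hexact : nfrac G x = 0 → ∃ y : ι → ℝ, (∀ i ∈ G, y i = 0 ∨ y i = 1) ∧
        (∀ j, ∑ k ∈ Q j, (∑ i ∈ G, (y i - x i) * u i k) ^ 2 ≤
          96 * ((min (4 * (Q j).card) r : ℕ) : ℝ)) ∧
        ∑ k ∈ Q 0, (s k + ∑ i ∈ G, (y i - x i) * u i k) ^ 2 ≤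
          ∑ k ∈ Q 0, (s k) ^ 2 + 16 * ((min r (4 * (Q 0).card) : ℕ) : ℝ) := by
      intro h0
      refine ⟨x, ?_, ?_, ?_⟩
      · intro i hi
        rw [nfrac_eq] at h0
        by_contra hcon
        push Not at hcon
        have : i ∈ (G.filter (fun i => x i ≠ 0 ∧ x i ≠ 1)) := Finset.mem_filter.2 ⟨hi, hcon⟩
        rw [Finset.card_eq_zero.1 h0] at this
        simp at this
      · intro j
        simp
      · simp
    rcases Nat.eq_zero_or_pos (nfrac G x) with h0 | hpos
    · exact hexact h0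
    have hr1 : 1 ≤ r := by omega
    rcases le_or_gt r (4 * (Q 0).card) with hcase | hcase
    · -- small case
      obtain ⟨z, z1, z2, z3, z4, z5⟩ := kmove_zero (C := Unit) d G x hx u hu
        (fun i _ => ∑ k ∈ Q 0, s k * u i k) r hr
      rw [Fintype.card_unit] at z4
      set e1 : Fin d → ℝ := fun k => ∑ i ∈ G, (z i - x i) * u i k with he1
      obtain ⟨y, y1, y2, y3⟩ := round_few d G u hu (Q 0) 2 z (fun k => s k + e1 k) z1 z4
      have y4 := round_norm d G u hu 2 z y z1 y1 y2 z4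
      have esum : ∀ k, ∑ i ∈ G, (y i - x i) * u i k = e1 k + ∑ i ∈ G, (y i - z i) * u i k := by
        intro k
        simp only [he1]
        rw [← Finset.sum_add_distrib]
        exact Finset.sum_congr rfl fun i _ => by ring
      have hrr : (1 : ℝ) ≤ r := by exact_mod_cast hr1
      refine ⟨y, y1, ?_, ?_⟩
      · intro j
        have hcj : (Q 0).card ≤ (Q j).card := Finset.card_le_card (hQ (Nat.zero_le j))
        rw [min_eq_right (by omega : r ≤ 4 * (Q j).card)]
        simp_rw [esum]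
        calc ∑ k ∈ Q j, (e1 k + ∑ i ∈ G, (y i - z i) * u i k) ^ 2
            ≤ ∑ k, (e1 k + ∑ i ∈ G, (y i - z i) * u i k) ^ 2 :=
              Finset.sum_le_sum_of_subset_of_nonneg (Finset.subset_univ _)
                fun _ _ _ => sq_nonneg _
          _ ≤ ∑ k, (2 * (e1 k) ^ 2 + 2 * (∑ i ∈ G, (y i - z i) * u i k) ^ 2) := by
              apply Finset.sum_le_sum
              intro k _
              nlinarith [sq_nonneg (e1 k - ∑ i ∈ G, (y i - z i) * u i k)]
          _ = 2 * ∑ k, (e1 k) ^ 2 + 2 * ∑ k, (∑ i ∈ G, (y i - z i) * u i k) ^ 2 := by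
              rw [Finset.sum_add_distrib, Finset.mul_sum, Finset.mul_sum]
          _ ≤ 96 * (r : ℝ) := by
              push_cast at y4
              linarith
      · rw [min_eq_left hcase]
        have e2 : ∀ k, s k + ∑ i ∈ G, (y i - x i) * u i k =
            s k + e1 k + ∑ i ∈ G, (y i - z i) * u i k := by
          intro k; rw [esum]; ring
        simp_rw [e2]
        refine y3.trans ?_
        have e3 : ∑ k ∈ Q 0, s k * e1 k = 0 := by
          have := z3 ()
          rw [← this]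
          simp only [he1, Finset.mul_sum]
          rw [Finset.sum_comm]
          exact Finset.sum_congr rfl fun i _ => Finset.sum_congr rfl fun k _ => by ring
        have e4 : ∑ k ∈ Q 0, (s k + e1 k) ^ 2 = ∑ k ∈ Q 0, (s k) ^ 2 +
            2 * ∑ k ∈ Q 0, s k * e1 k + ∑ k ∈ Q 0, (e1 k) ^ 2 := by
          rw [Finset.mul_sum, ← Finset.sum_add_distrib, ← Finset.sum_add_distrib]
          exact Finset.sum_congr rfl fun k _ => by ring
        have e5 : ∑ k ∈ Q 0, (e1 k) ^ 2 ≤ 8 * r :=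
          (Finset.sum_le_sum_of_subset_of_nonneg (Finset.subset_univ _)
            fun _ _ _ => sq_nonneg _).trans z5
        rw [e4, e3]
        push_cast
        linarith
    · -- large case: choose the flag member
      obtain ⟨J, hJ, hJmax⟩ : ∃ J, 4 * (Q J).card ≤ r ∧
          ∀ j, 4 * (Q j).card ≤ r → (Q j).card ≤ (Q J).card := by
        have hbdd : ∃ N, ∀ j, 4 * (Q j).card ≤ r → (Q j).card ≤ N :=
          ⟨r, fun j hj => by omega⟩
        let S : Finset ℕ := (Finset.range (r + 1)).filter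
          (fun c => ∃ j, (Q j).card = c ∧ 4 * c ≤ r)
        have hS : S.Nonempty := by
          refine ⟨(Q 0).card, ?_⟩
          rw [Finset.mem_filter, Finset.mem_range]
          exact ⟨by omega, 0, rfl, by omega⟩
        obtain ⟨c, hc, hcmax⟩ := Finset.exists_max_image S id hS
        obtain ⟨_, J, hJ1, hJ2⟩ := Finset.mem_filter.1 hc
        refine ⟨J, by omega, fun j hj => ?_⟩
        have : (Q j).card ∈ S := by
          rw [Finset.mem_filter, Finset.mem_range]
          exact ⟨by omega, j, rfl, hj⟩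
        have := hcmax _ this
        simp only [id] at this
        omega
      have hsub : ∀ j, 4 * (Q j).card ≤ r → Q j ⊆ Q J := by
        intro j hj
        rcases le_total j J with h | h
        · exact hQ h
        · have h1 := hQ h
          have h2 := hJmax j hj
          exact (Finset.eq_of_subset_of_card_le h1 h2).symm.subset
      obtain ⟨z, z1, z2, z3, z4, z5⟩ := kmove_zero (C := {k // k ∈ Q J}) d G x hx u hu
        (fun i c => u i c) r hr
      rw [Fintype.card_coe] at z4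
      set e1 : Fin d → ℝ := fun k => ∑ i ∈ G, (z i - x i) * u i k with he1
      have e1zero : ∀ k ∈ Q J, e1 k = 0 := fun k hk => z3 ⟨k, hk⟩
      obtain ⟨y, y1, y2, y3⟩ := ih (r / 2) (by omega) z z1 (by omega)
      have esum : ∀ k, ∑ i ∈ G, (y i - x i) * u i k = e1 k + ∑ i ∈ G, (y i - z i) * u i k := by
        intro k
        simp only [he1]
        rw [← Finset.sum_add_distrib]
        exact Finset.sum_congr rfl fun i _ => by ring
      have hhalf : (((r / 2 : ℕ) : ℕ) : ℝ) ≤ (r : ℝ) / 2 := Nat.cast_div_le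
      refine ⟨y, y1, ?_, ?_⟩
      · intro j
        rcases le_or_gt (4 * (Q j).card) r with hj | hj
        · have h1 : ∀ k ∈ Q j, ∑ i ∈ G, (y i - x i) * u i k = ∑ i ∈ G, (y i - z i) * u i k := by
            intro k hk
            rw [esum, e1zero k (hsub j hj hk), zero_add]
          rw [Finset.sum_congr rfl fun k hk => by rw [h1 k hk]]
          refine (y2 j).trans ?_
          have : min (4 * (Q j).card) (r / 2) ≤ min (4 * (Q j).card) r := by
            apply min_le_min_left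
            omega
          have h2 : ((min (4 * (Q j).card) (r / 2) : ℕ) : ℝ) ≤ ((min (4 * (Q j).card) r : ℕ) : ℝ) :=
            Nat.cast_le.2 this
          linarith
        · rw [min_eq_right hj.le]
          simp_rw [esum]
          calc ∑ k ∈ Q j, (e1 k + ∑ i ∈ G, (y i - z i) * u i k) ^ 2
              ≤ ∑ k ∈ Q j, (3 * (e1 k) ^ 2 + 3 / 2 * (∑ i ∈ G, (y i - z i) * u i k) ^ 2) := by
                apply Finset.sum_le_sum
                intro k _
                nlinarith [sq_nonneg (2 * e1 k - ∑ i ∈ G, (y i - z i) * u i k)]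
            _ = 3 * ∑ k ∈ Q j, (e1 k) ^ 2 +
                3 / 2 * ∑ k ∈ Q j, (∑ i ∈ G, (y i - z i) * u i k) ^ 2 := by
                rw [Finset.sum_add_distrib, Finset.mul_sum, Finset.mul_sum]
            _ ≤ 3 * (8 * r) + 3 / 2 * (96 * (r / 2)) := by
                have h1 : ∑ k ∈ Q j, (e1 k) ^ 2 ≤ 8 * r :=
                  (Finset.sum_le_sum_of_subset_of_nonneg (Finset.subset_univ _)
                    fun _ _ _ => sq_nonneg _).trans z5
                have h2 := y2 j
                have h3 : ((min (4 * (Q j).card) (r / 2) : ℕ) : ℝ) ≤ ((r / 2 : ℕ) : ℝ) :=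
                  Nat.cast_le.2 (min_le_right _ _)
                linarith
            _ = 96 * (r : ℝ) := by ring
      · have h1 : ∀ k ∈ Q 0, s k + ∑ i ∈ G, (y i - x i) * u i k =
            s k + ∑ i ∈ G, (y i - z i) * u i k := by
          intro k hk
          rw [esum, e1zero k (hsub 0 (by omega) hk), zero_add]
        rw [Finset.sum_congr rfl fun k hk => by rw [h1 k hk]]
        refine y3.trans ?_
        have : min (r / 2) (4 * (Q 0).card) ≤ min r (4 * (Q 0).card) := by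
          apply min_le_min_right
          omega
        have h2 : ((min (r / 2) (4 * (Q 0).card) : ℕ) : ℝ) ≤
            ((min r (4 * (Q 0).card) : ℕ) : ℝ) := Nat.cast_le.2 this
        linarith

end P262L
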