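import Mathlib

/-! P262, second result, module M1: kernel moves with a quadratic potential. -/

namespace P262L

open scoped BigOperators

/-- a kernel vector on which the quadratic form is small (Bessel). -/
theorem exists_good_kernel {α C : Type} [Fintype α] [DecidableEq α] [Fintype C] (d : ℕ)
    (hr : 2 * Fintype.card C < Fintype.card α)
    (u : α → Fin d → ℝ) (hu : ∀ i, ∑ k, (u i k) ^ 2 ≤ 4) (f : α → C → ℝ) :
    ∃ w : α → ℝ, w ≠ 0 ∧ (∀ c, ∑ i, w i * f i c = 0) ∧
      ∑ k, (∑ i, w i * u i k) ^ 2 ≤ 8 * ∑ i, (w i) ^ 2 := by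
  classical
  let E := EuclideanSpace ℝ α
  let A : E →ₗ[ℝ] (C → ℝ) :=
    { toFun := fun w c => ∑ i, w i * f i c
      map_add' := by
        intro v w; ext c
        show ∑ i, (v i + w i) * f i c = ∑ i, v i * f i c + ∑ i, w i * f i c
        simp only [add_mul, Finset.sum_add_distrib]
      map_smul' := by
        intro a w; ext c
        show ∑ i, (a * w i) * f i c = a * ∑ i, w i * f i c
        simp only [Finset.mul_sum, mul_assoc] }
  let K : Submodule ℝ E := LinearMap.ker A
  have hdim : Fintype.card α ≤ Module.finrank ℝ K + Fintype.card C := by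
    have h1 := LinearMap.finrank_range_add_finrank_ker A
    have h2 : Module.finrank ℝ (LinearMap.range A) ≤ Module.finrank ℝ (C → ℝ) :=
      Submodule.finrank_le _
    rw [Module.finrank_fintype_fun_eq_card] at h2
    rw [finrank_euclideanSpace] at h1
    show Fintype.card α ≤ Module.finrank ℝ (LinearMap.ker A) + Fintype.card C
    omega
  set m := Module.finrank ℝ K with hm
  have hm2 : Fintype.card α ≤ 2 * m := by omega
  have hm0 : 0 < m := by omega
  let b := stdOrthonormalBasis ℝ K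
  let bv : Fin m → E := fun j => (b j : E)
  have hbv : Orthonormal ℝ bv := b.orthonormal.comp_linearIsometry K.subtypeₗᵢ
  let V : Fin d → E := fun k => WithLp.toLp 2 fun i => u i k
  have hB : ∀ k, ∑ j, (inner ℝ (bv j) (V k)) ^ 2 ≤ ‖V k‖ ^ 2 := by
    intro k
    have := hbv.sum_inner_products_le (V k) (s := Finset.univ)
    simpa using this
  have hV : ∑ k, ‖V k‖ ^ 2 ≤ 4 * (Fintype.card α : ℝ) := by
    have h1 : ∀ k, ‖V k‖ ^ 2 = ∑ i, (u i k) ^ 2 := by
      intro k
      rw [EuclideanSpace.norm_sq_eq]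
      refine Finset.sum_congr rfl fun i _ => ?_
      rw [Real.norm_eq_abs, sq_abs]
    simp_rw [h1]
    rw [Finset.sum_comm]
    calc ∑ i, ∑ k, (u i k) ^ 2 ≤ ∑ _i : α, (4 : ℝ) := Finset.sum_le_sum fun i _ => hu i
      _ = 4 * (Fintype.card α : ℝ) := by
        rw [Finset.sum_const, Finset.card_univ, nsmul_eq_mul]; ring
  have hsum : ∑ j, ∑ k, (inner ℝ (bv j) (V k)) ^ 2 ≤ ∑ _j : Fin m, (8 : ℝ) := by
    rw [Finset.sum_comm]
    calc ∑ k, ∑ j, (inner ℝ (bv j) (V k)) ^ 2 ≤ ∑ k, ‖V k‖ ^ 2 :=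
          Finset.sum_le_sum fun k _ => hB k
      _ ≤ 4 * (Fintype.card α : ℝ) := hV
      _ ≤ 4 * ((2 * m : ℕ) : ℝ) := by gcongr
      _ = ∑ _j : Fin m, (8 : ℝ) := by
        rw [Finset.sum_const, Finset.card_univ, Fintype.card_fin, nsmul_eq_mul]
        push_cast; ring
  have : Nonempty (Fin m) := ⟨⟨0, hm0⟩⟩
  obtain ⟨j, _, hj⟩ := Finset.exists_le_of_sum_le (Finset.univ_nonempty) hsum
  refine ⟨fun i => bv j i, ?_, ?_, ?_⟩
  · intro h0
    have h1 : bv j = 0 := by ext i; exact congrFun h0 i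
    have h2 := hbv.1 j
    rw [h1, norm_zero] at h2
    exact zero_ne_one h2
  · intro c
    have h1 : A (bv j) = 0 := (b j).2
    exact congrFun h1 c
  · have h1 : ∑ i, (bv j i) ^ 2 = 1 := by
      have h2 := EuclideanSpace.norm_sq_eq (bv j)
      rw [hbv.1 j, one_pow] at h2
      rw [h2]
      refine Finset.sum_congr rfl fun i _ => ?_
      rw [Real.norm_eq_abs, sq_abs]
    rw [h1, mul_one]
    refine le_trans (le_of_eq ?_) hj
    refine Finset.sum_congr rfl fun k _ => ?_
    congr 1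
    rw [PiLp.inner_apply]
    refine Finset.sum_congr rfl fun i _ => ?_
    simp only [V, RCLike.inner_apply, conj_trivial]
    ring

theorem kmove {ι C : Type} [DecidableEq ι] [Fintype C] (d : ℕ)
    (W : Finset ι) (x : ι → ℝ) (hx : ∀ i ∈ W, 0 ≤ x i ∧ x i ≤ 1)
    (u : ι → Fin d → ℝ) (hu : ∀ i ∈ W, ∑ k, (u i k) ^ 2 ≤ 4) (f : ι → C → ℝ) (e : Fin d → ℝ) :
    ∃ z : ι → ℝ, (∀ i ∈ W, 0 ≤ z i ∧ z i ≤ 1) ∧
      (∀ i ∈ W, x i = 0 ∨ x i = 1 → z i = x i) ∧
      (∀ c, ∑ i ∈ W, z i * f i c = ∑ i ∈ W, x i * f i c) ∧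
      (W.filter (fun i => z i ≠ 0 ∧ z i ≠ 1)).card ≤ 2 * Fintype.card C ∧
      ∑ k, (e k + ∑ i ∈ W, (z i - x i) * u i k) ^ 2 - ∑ k, (e k) ^ 2 ≤
        8 * (∑ i ∈ W, (z i) ^ 2 - ∑ i ∈ W, (x i) ^ 2) := by
  classical
  -- induction on the number of fractional coordinates
  suffices H : ∀ (n : ℕ) (x : ι → ℝ) (e : Fin d → ℝ), (∀ i ∈ W, 0 ≤ x i ∧ x i ≤ 1) →
      (W.filter (fun i => x i ≠ 0 ∧ x i ≠ 1)).card ≤ n →
      ∃ z : ι → ℝ, (∀ i ∈ W, 0 ≤ z i ∧ z i ≤ 1) ∧
      (∀ i ∈ W, x i = 0 ∨ x i = 1 → z i = x i) ∧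
      (∀ c, ∑ i ∈ W, z i * f i c = ∑ i ∈ W, x i * f i c) ∧
      (W.filter (fun i => z i ≠ 0 ∧ z i ≠ 1)).card ≤ 2 * Fintype.card C ∧
      ∑ k, (e k + ∑ i ∈ W, (z i - x i) * u i k) ^ 2 - ∑ k, (e k) ^ 2 ≤
        8 * (∑ i ∈ W, (z i) ^ 2 - ∑ i ∈ W, (x i) ^ 2) from H _ x e hx le_rfl
  intro n
  induction n with
  | zero =>
    intro x e hx hc
    exact ⟨x, hx, fun _ _ _ => rfl, fun _ => rfl, hc.trans (Nat.zero_le _), by simp⟩
  | succ n ih =>
    intro x e hx hc
    by_cases hle : (W.filter (fun i => x i ≠ 0 ∧ x i ≠ 1)).card ≤ 2 * Fintype.card C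
    · exact ⟨x, hx, fun _ _ _ => rfl, fun _ => rfl, hle, by simp⟩
    push Not at hle
    set Fr := W.filter (fun i => x i ≠ 0 ∧ x i ≠ 1) with hFr
    have hFrW : Fr ⊆ W := Finset.filter_subset _ _
    -- kernel vector
    obtain ⟨w0, hw0ne, hw0, hw0q⟩ := exists_good_kernel (α := {i // i ∈ Fr}) (C := C) d
      (by rw [Fintype.card_coe]; exact hle) (fun i => u i) (fun i => hu i (hFrW i.2)) (fun i => f i)
    -- extend by zero and choose the sign
    set w1 : ι → ℝ := fun i => if h : i ∈ Fr then w0 ⟨i, h⟩ else 0 with hw1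
    have hw1F : ∀ i, i ∉ Fr → w1 i = 0 := fun i hi => by simp only [hw1, dif_neg hi]
    have hw1c : ∀ i : {i // i ∈ Fr}, w1 (i : ι) = w0 i := fun i => by
      simp only [hw1, dif_pos i.2]
    have hext : ∀ g : ι → ℝ, ∑ i ∈ W, w1 i * g i = ∑ i : {i // i ∈ Fr}, w0 i * g i := by
      intro g
      have h1 : ∑ i ∈ W, w1 i * g i = ∑ i ∈ Fr, w1 i * g i := by
        symm
        apply Finset.sum_subset hFrW
        intro i _ hi
        rw [hw1F i hi]; ring
      rw [h1, ← Finset.sum_coe_sort]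
      exact Finset.sum_congr rfl fun i _ => by rw [hw1c]
    have hext2 : ∑ i ∈ W, (w1 i) ^ 2 = ∑ i : {i // i ∈ Fr}, (w0 i) ^ 2 := by
      have h1 : ∑ i ∈ W, (w1 i) ^ 2 = ∑ i ∈ Fr, (w1 i) ^ 2 := by
        symm
        apply Finset.sum_subset hFrW
        intro i _ hi
        rw [hw1F i hi]; ring
      rw [h1, ← Finset.sum_coe_sort]
      exact Finset.sum_congr rfl fun i _ => by rw [hw1c]
    have hsum1 : ∀ c, ∑ i ∈ W, w1 i * f i c = 0 := fun c => by
      rw [hext (fun i => f i c)]; exact hw0 c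
    have hq1 : ∑ k, (∑ i ∈ W, w1 i * u i k) ^ 2 ≤ 8 * ∑ i ∈ W, (w1 i) ^ 2 := by
      rw [hext2]
      refine le_trans (le_of_eq ?_) hw0q
      exact Finset.sum_congr rfl fun k _ => by rw [hext (fun i => u i k)]
    obtain ⟨w, hwF, hwne, hsum, hq, hlin⟩ : ∃ w : ι → ℝ, (∀ i, i ∉ Fr → w i = 0) ∧
        (∃ j, w j ≠ 0) ∧ (∀ c, ∑ i ∈ W, w i * f i c = 0) ∧
        (∑ k, (∑ i ∈ W, w i * u i k) ^ 2 ≤ 8 * ∑ i ∈ W, (w i) ^ 2) ∧
        ∑ k, e k * (∑ i ∈ W, w i * u i k) ≤ 8 * ∑ i ∈ W, x i * w i := by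
      have hne : ∃ j, w1 j ≠ 0 := by
        by_contra hcon
        push Not at hcon
        apply hw0ne
        ext i
        rw [← hw1c i, hcon i]; rfl
      rcases le_total (∑ k, e k * (∑ i ∈ W, w1 i * u i k)) (8 * ∑ i ∈ W, x i * w1 i) with h | h
      · exact ⟨w1, hw1F, hne, hsum1, hq1, h⟩
      · refine ⟨fun i => - w1 i, fun i hi => by simp only [hw1F i hi, neg_zero], ?_, ?_, ?_, ?_⟩
        · obtain ⟨j, hj⟩ := hne
          exact ⟨j, neg_ne_zero.2 hj⟩
        · intro c
          simp only [neg_mul, Finset.sum_neg_distrib, hsum1 c, neg_zero]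
        · simp only [neg_mul, Finset.sum_neg_distrib, neg_sq]
          exact hq1
        · simp only [neg_mul, mul_neg, Finset.sum_neg_distrib]
          linarith
    obtain ⟨j0, hj0⟩ := hwne
    -- step sizes
    set P := Fr.filter (fun i => w i ≠ 0) with hP
    have hPne : P.Nonempty := by
      refine ⟨j0, ?_⟩
      rw [hP, Finset.mem_filter]
      refine ⟨?_, hj0⟩
      by_contra h; exact hj0 (hwF _ h)
    set τ : ι → ℝ := fun i => if 0 < w i then (1 - x i) / w i else x i / (-w i) with hτ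
    obtain ⟨i0, hi0, hmin⟩ := Finset.exists_min_image P τ hPne
    have hPfr : ∀ i ∈ P, (0 < x i ∧ x i < 1) ∧ w i ≠ 0 ∧ i ∈ W := by
      intro i hi
      rw [hP, Finset.mem_filter, hFr, Finset.mem_filter] at hi
      have h1 := hx i hi.1.1
      exact ⟨⟨lt_of_le_of_ne h1.1 (Ne.symm hi.1.2.1), lt_of_le_of_ne h1.2 hi.1.2.2⟩, hi.2, hi.1.1⟩
    have hτpos : ∀ i ∈ P, 0 < τ i := by
      intro i hi
      obtain ⟨⟨h1, h2⟩, h3, _⟩ := hPfr i hi
      simp only [hτ]
      split_ifs with h
      · exact div_pos (by linarith) h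
      · exact div_pos h1 (by
          have : w i < 0 := lt_of_le_of_ne (not_lt.1 h) h3
          linarith)
    set t := τ i0 with ht
    have htpos : 0 < t := hτpos i0 hi0
    set z : ι → ℝ := fun i => x i + t * w i with hz
    have hz01 : ∀ i ∈ W, 0 ≤ z i ∧ z i ≤ 1 := by
      intro i hi
      by_cases hwi : w i = 0
      · simp only [hz, hwi, mul_zero, add_zero]; exact hx i hi
      · have hiP : i ∈ P := by
          rw [hP, Finset.mem_filter]
          refine ⟨?_, hwi⟩
          by_contra h; exact hwi (hwF _ h)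
        have hle2 := hmin i hiP
        obtain ⟨⟨h1, h2⟩, h3, _⟩ := hPfr i hiP
        rcases lt_or_gt_of_ne hwi with hneg | hpos
        · have e : τ i = x i / (-w i) := by
            simp only [hτ]; rw [if_neg (not_lt.2 hneg.le)]
          rw [e, le_div_iff₀ (by linarith)] at hle2
          simp only [hz]
          constructor
          · linarith
          · have : t * w i < 0 := mul_neg_of_pos_of_neg htpos hneg
            linarith
        · have e : τ i = (1 - x i) / w i := by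
            simp only [hτ]; rw [if_pos hpos]
          rw [e, le_div_iff₀ hpos] at hle2
          simp only [hz]
          constructor
          · have : 0 < t * w i := mul_pos htpos hpos
            linarith
          · linarith
    have hi0z : z i0 = 0 ∨ z i0 = 1 := by
      obtain ⟨_, h3, _⟩ := hPfr i0 hi0
      rcases lt_or_gt_of_ne h3 with hneg | hpos
      · left
        have e : t = x i0 / (-w i0) := by
          rw [ht]; simp only [hτ]; rw [if_neg (not_lt.2 hneg.le)]
        simp only [hz]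
        rw [e]; field_simp; ring
      · right
        have e : t = (1 - x i0) / w i0 := by
          rw [ht]; simp only [hτ]; rw [if_pos hpos]
        simp only [hz]
        rw [e]; field_simp; ring
    have hzfix : ∀ i ∈ W, x i = 0 ∨ x i = 1 → z i = x i := by
      intro i _ hi
      have hiF : i ∉ Fr := by
        rw [hFr, Finset.mem_filter]
        rintro ⟨_, h1, h2⟩
        rcases hi with h | h
        · exact h1 h
        · exact h2 h
      simp only [hz]; rw [hwF i hiF]; ring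
    have hsub : W.filter (fun i => z i ≠ 0 ∧ z i ≠ 1) ⊆ Fr.erase i0 := by
      intro i hi
      rw [Finset.mem_filter] at hi
      rw [Finset.mem_erase]
      constructor
      · intro h
        subst h
        rcases hi0z with h | h
        · exact hi.2.1 h
        · exact hi.2.2 h
      · by_contra hiF
        have h1 : z i = x i := by simp only [hz]; rw [hwF i hiF]; ring
        rw [h1] at hi
        exact hiF (by rw [hFr, Finset.mem_filter]; exact hi)
    have hi0F : i0 ∈ Fr := by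
      rw [hP, Finset.mem_filter] at hi0; exact hi0.1
    have hcard : (W.filter (fun i => z i ≠ 0 ∧ z i ≠ 1)).card ≤ n := by
      have h1 := Finset.card_le_card hsub
      rw [Finset.card_erase_of_mem hi0F] at h1
      omega
    set e' : Fin d → ℝ := fun k => e k + t * ∑ i ∈ W, w i * u i k with he'
    obtain ⟨y, hy1, hy2, hy3, hy4, hy5⟩ := ih z e' hz01 hcard
    refine ⟨y, hy1, ?_, fun c => ?_, hy4, ?_⟩
    · intro i hi hxi
      have h1 := hzfix i hi hxi
      rw [← h1] at hxi
      rw [hy2 i hi hxi, h1]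
    · rw [hy3 c]
      have : ∑ i ∈ W, z i * f i c = ∑ i ∈ W, x i * f i c + t * ∑ i ∈ W, w i * f i c := by
        rw [Finset.mul_sum, ← Finset.sum_add_distrib]
        refine Finset.sum_congr rfl fun i _ => ?_
        simp only [hz]; ring
      rw [this, hsum c]; ring
    · -- the potential
      have e1 : ∀ k, e' k + ∑ i ∈ W, (y i - z i) * u i k = e k + ∑ i ∈ W, (y i - x i) * u i k := by
        intro k
        simp only [he']
        rw [add_assoc, Finset.mul_sum, ← Finset.sum_add_distrib]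
        congr 1
        refine Finset.sum_congr rfl fun i _ => ?_
        simp only [hz]; ring
      simp_rw [e1] at hy5
      have e2 : ∑ k, (e' k) ^ 2 = ∑ k, (e k) ^ 2 + 2 * t * ∑ k, e k * (∑ i ∈ W, w i * u i k) +
          t ^ 2 * ∑ k, (∑ i ∈ W, w i * u i k) ^ 2 := by
        rw [Finset.mul_sum, Finset.mul_sum, ← Finset.sum_add_distrib, ← Finset.sum_add_distrib]
        refine Finset.sum_congr rfl fun k _ => ?_
        simp only [he']; ring
      have e3 : ∑ i ∈ W, (z i) ^ 2 = ∑ i ∈ W, (x i) ^ 2 + 2 * t * ∑ i ∈ W, x i * w i +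
          t ^ 2 * ∑ i ∈ W, (w i) ^ 2 := by
        rw [Finset.mul_sum, Finset.mul_sum, ← Finset.sum_add_distrib, ← Finset.sum_add_distrib]
        refine Finset.sum_congr rfl fun i _ => ?_
        simp only [hz]; ring
      have e4 : 2 * t * ∑ k, e k * (∑ i ∈ W, w i * u i k) ≤ 2 * t * (8 * ∑ i ∈ W, x i * w i) :=
        mul_le_mul_of_nonneg_left hlin (by positivity)
      have e5 : t ^ 2 * ∑ k, (∑ i ∈ W, w i * u i k) ^ 2 ≤ t ^ 2 * (8 * ∑ i ∈ W, (w i) ^ 2) :=
        mul_le_mul_of_nonneg_left hq (by positivity)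
      rw [e2, e3] at hy5
      linarith

end P262L
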