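import Vale.Agent.P262L.StepF

/-! P262, bound `√(d log d)`: numerical estimates for the middle points. -/

set_option linter.unusedSectionVars false

namespace P262L

open Finset
open scoped Classical

variable {d : ℕ} {ι : Type}

lemma end_abs (P : Par d) (G : P.Good) (lv : Fin d → ℕ) (l p : ℕ) (a : Fin d → ℝ)
    (ha : BdE P lv l p a) (k : Fin d) : |a k| ≤ P.b0 := by
  have h1 := ha (max l (lv k)) (le_max_left _ _)
  have h2 : (a k) ^ 2 ≤ ∑ k' ∈ Finset.univ.filter (fun k' => lv k' ≤ max l (lv k)), (a k') ^ 2 :=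
    Finset.single_le_sum (f := fun k' => (a k') ^ 2) (fun _ _ => sq_nonneg _)
      (Finset.mem_filter.2 ⟨Finset.mem_univ _, le_max_right _ _⟩)
  have h3 := P.BB_le lv l
  have h4 : ((Finset.univ.filter
      (fun k' : Fin d => l < lv k' ∧ lv k' ≤ max l (lv k))).card : ℝ) ≤ d := by
    have := Finset.card_le_univ
      (Finset.univ.filter (fun k' : Fin d => l < lv k' ∧ lv k' ≤ max l (lv k)))
    simp only [Fintype.card_fin] at this
    exact_mod_cast this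
  have h5 : (0:ℝ) ≤ p := Nat.cast_nonneg _
  have h6 := G.hb0
  have h7 : (a k) ^ 2 ≤ P.b0 ^ 2 := by linarith
  exact abs_le_of_sq_le_sq h7 (by linarith [G.b0_ge])

lemma tiny (P : Par d) (G : P.Good) (j : ℕ) (hj : P.J ≤ j) (s : ℝ) (hs : 0 ≤ s)
    (hs2 : s ^ 2 = 2 * P.Lam * (3 / 5 : ℝ) ^ (j - (P.K + 1))) :
    (4 * P.b0 + 1) * ((2 * P.nF + 2) * s) ≤ (4 / 5 : ℝ) ^ (j - P.J) := by
  have hnF : 0 ≤ P.nF := by unfold Par.nF; positivity
  have hb0 := G.b0_ge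
  have hpos : 0 ≤ (4 * P.b0 + 1) * ((2 * P.nF + 2) * s) := by positivity
  apply le_of_sq_le_sq _ (by positivity)
  have e : j - (P.K + 1) = P.J' + (j - P.J) := by unfold Par.J at hj ⊢; omega
  have e2 : ((4 * P.b0 + 1) * ((2 * P.nF + 2) * s)) ^ 2 =
      ((4 * P.b0 + 1) * (2 * P.nF + 2)) ^ 2 * s ^ 2 := by ring
  rw [e2, hs2, e, pow_add]
  have h2 := G.hJ
  have h3 : ((4 * P.b0 + 1) * (2 * P.nF + 2)) ^ 2 *
      (2 * P.Lam * ((3 / 5 : ℝ) ^ P.J' * (3 / 5 : ℝ) ^ (j - P.J))) =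
      (((4 * P.b0 + 1) * (2 * P.nF + 2)) ^ 2 * (2 * P.Lam) * (3 / 5 : ℝ) ^ P.J') *
        (3 / 5 : ℝ) ^ (j - P.J) := by ring
  rw [h3]
  calc _ ≤ 1 * (3 / 5 : ℝ) ^ (j - P.J) := mul_le_mul_of_nonneg_right h2 (by positivity)
    _ = (3 / 5 : ℝ) ^ (j - P.J) := one_mul _
    _ ≤ ((4 / 5 : ℝ) ^ 2) ^ (j - P.J) := pow_le_pow_left₀ (by norm_num) (by norm_num) _
    _ = ((4 / 5 : ℝ) ^ (j - P.J)) ^ 2 := by rw [← pow_mul, ← pow_mul, mul_comm]

/-- active coordinates -/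
lemma num_active (Q : Finset (Fin d)) (b : ℝ) (hb : 30 * ((d : ℝ) + 1) ≤ b)
    (q r E T : Fin d → ℝ)
    (hq : ∑ k ∈ Q, (q k + E k) ^ 2 ≤ ∑ k ∈ Q, (q k) ^ 2 + 64 * Q.card)
    (hE : ∑ k ∈ Q, (E k) ^ 2 ≤ 384 * Q.card)
    (hr : ∑ k ∈ Q, (r k) ^ 2 ≤ Q.card)
    (hqb : ∀ k ∈ Q, |q k + r k| ≤ 2 * b)
    (hT : ∀ k ∈ Q, |T k| ≤ 1 / (8 * b)) :
    ∑ k ∈ Q, (q k + r k + E k + T k) ^ 2 ≤ ∑ k ∈ Q, (q k + r k) ^ 2 + 450 * Q.card := by
  have hd0 : (0:ℝ) ≤ d := Nat.cast_nonneg _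
  have hb1 : 30 ≤ b := by linarith
  have hQd : (Q.card : ℝ) ≤ d := by
    have := Finset.card_le_univ Q
    simp only [Fintype.card_fin] at this
    exact_mod_cast this
  have hEb : ∀ k ∈ Q, |E k| ≤ b := by
    intro k hk
    have h1 : (E k) ^ 2 ≤ ∑ k ∈ Q, (E k) ^ 2 :=
      Finset.single_le_sum (f := fun k => (E k) ^ 2) (fun _ _ => sq_nonneg _) hk
    have h2 : (E k) ^ 2 ≤ b ^ 2 := by
      have h3 : (E k) ^ 2 ≤ 384 * d := by linarith
      have h4 : 384 * (d : ℝ) ≤ (30 * ((d : ℝ) + 1)) ^ 2 := by nlinarith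
      have h5 : (30 * ((d : ℝ) + 1)) ^ 2 ≤ b ^ 2 := pow_le_pow_left₀ (by positivity) hb 2
      linarith
    exact abs_le_of_sq_le_sq h2 (by linarith)
  have key : ∀ k ∈ Q, (q k + r k + E k + T k) ^ 2 ≤
      (q k + E k) ^ 2 + ((q k + r k) ^ 2 - (q k) ^ 2) + (E k) ^ 2 + (r k) ^ 2 + 1 := by
    intro k hk
    have h1 : (q k + r k + E k + T k) ^ 2 =
        (q k + E k) ^ 2 + ((q k + r k) ^ 2 - (q k) ^ 2) + 2 * (E k * r k)
          + (2 * ((q k + r k + E k) * T k) + (T k) ^ 2) := by ring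
    have h2 : 2 * (E k * r k) ≤ (E k) ^ 2 + (r k) ^ 2 := by nlinarith [sq_nonneg (E k - r k)]
    have h3 : (q k + r k + E k) * T k ≤ (3 * b) * (1 / (8 * b)) := by
      calc (q k + r k + E k) * T k ≤ |(q k + r k + E k) * T k| := le_abs_self _
        _ = |q k + r k + E k| * |T k| := abs_mul _ _
        _ ≤ (3 * b) * (1 / (8 * b)) := by
            apply mul_le_mul _ (hT k hk) (abs_nonneg _) (by linarith)
            have := abs_add_le (q k + r k) (E k)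
            linarith [hqb k hk, hEb k hk]
    have h4 : (3 * b) * (1 / (8 * b)) = 3 / 8 := by
      have : b ≠ 0 := by linarith
      field_simp
    have h5 : (T k) ^ 2 ≤ 1 / 4 := by
      have h6 : |T k| ≤ 1 / 2 := by
        refine (hT k hk).trans ?_
        rw [div_le_div_iff₀ (by linarith) (by norm_num)]
        linarith
      rw [← sq_abs]
      nlinarith [abs_nonneg (T k)]
    rw [h1]
    rw [h4] at h3
    linarith
  calc _ ≤ ∑ k ∈ Q, ((q k + E k) ^ 2 + ((q k + r k) ^ 2 - (q k) ^ 2) + (E k) ^ 2 + (r k) ^ 2 + 1) :=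
        Finset.sum_le_sum key
    _ = ∑ k ∈ Q, (q k + E k) ^ 2 + (∑ k ∈ Q, (q k + r k) ^ 2 - ∑ k ∈ Q, (q k) ^ 2)
        + ∑ k ∈ Q, (E k) ^ 2 + ∑ k ∈ Q, (r k) ^ 2 + Q.card := by
        rw [Finset.sum_add_distrib, Finset.sum_add_distrib, Finset.sum_add_distrib,
          Finset.sum_add_distrib, Finset.sum_sub_distrib]
        simp
    _ ≤ _ := by linarith

/-- dead coordinates -/
lemma num_dead (D : Finset (Fin d)) (b : ℝ) (hb : 30 ≤ b) (w t ω : Fin d → ℝ)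
    (hw : ∀ k ∈ D, |w k| ≤ 2 * b) (ht : ∀ k ∈ D, (4 * b + 1) * |t k| ≤ ω k)
    (hω : ∀ k ∈ D, ω k ≤ 1) :
    ∑ k ∈ D, (w k + t k) ^ 2 ≤ ∑ k ∈ D, (w k) ^ 2 + ∑ k ∈ D, ω k := by
  rw [← Finset.sum_add_distrib]
  refine Finset.sum_le_sum fun k hk => ?_
  have h1 := hw k hk
  have h2 := ht k hk
  have h3 := hω k hk
  have h4 : |t k| ≤ 1 := by
    by_contra hcon
    push Not at hcon
    nlinarith
  have h5 : w k * t k ≤ 2 * b * |t k| := by
    calc w k * t k ≤ |w k * t k| := le_abs_self _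
      _ = |w k| * |t k| := abs_mul _ _
      _ ≤ 2 * b * |t k| := mul_le_mul_of_nonneg_right h1 (abs_nonneg _)
  have h6 : (t k) ^ 2 ≤ |t k| := by
    rw [← sq_abs]; nlinarith [abs_nonneg (t k)]
  have h7 : (w k + t k) ^ 2 = (w k) ^ 2 + 2 * (w k * t k) + (t k) ^ 2 := by ring
  have h8 : (4 * b + 1) * |t k| = 2 * (2 * b * |t k|) + |t k| := by ring
  rw [h7]; linarith

/-- long coordinates -/
lemma num_long (A : Finset (Fin d)) (n0 : ℕ) (p E r : Fin d → ℝ)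
    (hp : ∑ k, (p k) ^ 2 ≤ 1) (hr : ∑ k, (r k) ^ 2 ≤ 1)
    (hE : ∑ k ∈ A, (E k) ^ 2 ≤ 384 * (n0 + A.card)) :
    ∑ k ∈ A, (p k + E k + r k) ^ 2 ≤ 1152 * n0 + 1158 * A.card := by
  by_cases hA : A = ∅
  · subst hA; simp
  have hc : (1:ℝ) ≤ A.card := by
    exact_mod_cast Finset.card_pos.2 (Finset.nonempty_iff_ne_empty.2 hA)
  have hp' : ∑ k ∈ A, (p k) ^ 2 ≤ 1 :=
    (Finset.sum_le_sum_of_subset_of_nonneg (Finset.subset_univ _)
      (fun _ _ _ => sq_nonneg _)).trans hp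
  have hr' : ∑ k ∈ A, (r k) ^ 2 ≤ 1 :=
    (Finset.sum_le_sum_of_subset_of_nonneg (Finset.subset_univ _)
      (fun _ _ _ => sq_nonneg _)).trans hr
  calc ∑ k ∈ A, (p k + E k + r k) ^ 2 ≤ ∑ k ∈ A, 3 * ((p k) ^ 2 + (E k) ^ 2 + (r k) ^ 2) :=
        Finset.sum_le_sum fun k _ => by
          nlinarith [sq_nonneg (p k - E k), sq_nonneg (p k - r k), sq_nonneg (E k - r k)]
    _ = 3 * (∑ k ∈ A, (p k) ^ 2 + ∑ k ∈ A, (E k) ^ 2 + ∑ k ∈ A, (r k) ^ 2) := by
        rw [← Finset.mul_sum, Finset.sum_add_distrib, Finset.sum_add_distrib]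
    _ ≤ _ := by linarith

lemma Q0_Dd (P : Par d) (lv : Fin d → ℕ) (l : ℕ) :
    Finset.univ.filter (fun k => lv k ≤ l + 1) = P.Q0 lv l ∪ P.Dd lv l ∧
      Disjoint (P.Q0 lv l) (P.Dd lv l) := by
  constructor
  · ext k
    unfold Par.Q0 Par.Dd
    simp only [Finset.mem_filter, Finset.mem_univ, true_and, Finset.mem_union]
    omega
  · rw [Finset.disjoint_left]
    intro k
    unfold Par.Q0 Par.Dd
    simp only [Finset.mem_filter, Finset.mem_univ, true_and]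
    omega

/-- the middle points satisfy the bound of the next level -/
lemma mid_bound (P : Par d) (G : P.Good) (lv : Fin d → ℕ) (l : ℕ)
    (s p E T rP rY : Fin d → ℝ) (cp : ℝ) (pl p' α : ℕ)
    (hs0 : ∀ k, l < lv k → s k = 0) (hsb : ∀ k, |s k| ≤ P.b0)
    (hsB : ∑ k ∈ Finset.univ.filter (fun k => lv k ≤ l), (s k) ^ 2 + pl ≤ P.BB lv l)
    (hw : ∑ k ∈ Finset.univ.filter (fun k => lv k ≤ l + 1), (s k + p k + rP k) ^ 2 ≤
      ∑ k ∈ Finset.univ.filter (fun k => lv k ≤ l + 1), (s k) ^ 2 + cp)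
    (hp : ∑ k, (p k) ^ 2 ≤ 1) (hrP : ∑ k, (rP k) ^ 2 ≤ 1 / 4) (hrY : ∑ k, (rY k) ^ 2 ≤ 1 / 4)
    (hE : ∀ j, ∑ k ∈ flg P lv l j, (E k) ^ 2 ≤ 384 * (flg P lv l j).card)
    (hE0 : ∑ k ∈ flg P lv l 0, ((s k + p k) + E k) ^ 2 ≤
        ∑ k ∈ flg P lv l 0, (s k + p k) ^ 2 + 64 * (flg P lv l 0).card)
    (hT0 : ∀ k, l < lv k → T k = 0) (hT : ∀ k, |T k| ≤ 1 / (8 * P.b0))
    (hY : ∀ k ∈ P.Q0 lv l, rY k = 0)
    (ht : ∀ k ∈ P.Dd lv l, (4 * P.b0 + 1) * |E k + T k + rY k| ≤ (4 / 5 : ℝ) ^ (l - lv k - P.J))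
    (hp' : (p' : ℝ) + cp ≤ pl + α) (hα : α ≤ (P.Q0 lv l).card) :
    BdE P lv (l + 1) p' (fun k => s k + p k + E k + T k + (rP k + rY k)) := by
  intro l' hl'
  have hb0 := G.b0_ge
  have hb1 := G.hb1
  set n0 := (P.Q0 lv l).card with hn0
  set Sh := Finset.univ.filter (fun k => lv k ≤ l + 1) with hSh
  set A := Finset.univ.filter (fun k => l + 1 < lv k ∧ lv k ≤ l') with hA
  obtain ⟨hQD, hdis⟩ := Q0_Dd P lv l
  have hsplit : Finset.univ.filter (fun k => lv k ≤ l') = Sh ∪ A := by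
    ext k
    rw [hSh, hA]
    simp only [Finset.mem_filter, Finset.mem_univ, true_and, Finset.mem_union]
    omega
  have hdis2 : Disjoint Sh A := by
    rw [Finset.disjoint_left]
    intro k
    rw [hSh, hA]
    simp only [Finset.mem_filter, Finset.mem_univ, true_and]
    omega
  have hp1 : ∀ k, |p k| ≤ 1 := by
    intro k
    have h1 : (p k) ^ 2 ≤ 1 :=
      (Finset.single_le_sum (f := fun k => (p k) ^ 2) (fun _ _ => sq_nonneg _)
        (Finset.mem_univ k)).trans hp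
    exact abs_le_one_iff_mul_self_le_one.2 (by nlinarith)
  have hrP1 : ∀ k, |rP k| ≤ 1 := by
    intro k
    have h1 : (rP k) ^ 2 ≤ 1 / 4 :=
      (Finset.single_le_sum (f := fun k => (rP k) ^ 2) (fun _ _ => sq_nonneg _)
        (Finset.mem_univ k)).trans hrP
    exact abs_le_one_iff_mul_self_le_one.2 (by nlinarith)
  have hwb : ∀ k, |s k + p k + rP k| ≤ 2 * P.b0 := by
    intro k
    have h1 := abs_add_le (s k + p k) (rP k)
    have h2 := abs_add_le (s k) (p k)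
    linarith [hsb k, hp1 k, hrP1 k]
  -- active part
  have hE0' := hE0
  have hE00 := hE 0
  rw [flg_zero] at hE0' hE00
  have hQ : ∑ k ∈ P.Q0 lv l, (s k + p k + rP k + E k + T k) ^ 2 ≤
      ∑ k ∈ P.Q0 lv l, (s k + p k + rP k) ^ 2 + 450 * n0 := by
    apply num_active (P.Q0 lv l) P.b0 hb1 (fun k => s k + p k) rP E T hE0' hE00 _
      (fun k _ => hwb k) (fun k _ => hT k)
    by_cases hn : P.Q0 lv l = ∅
    · rw [hn]; simp
    · have h1 : (1:ℝ) ≤ (P.Q0 lv l).card := by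
        exact_mod_cast Finset.card_pos.2 (Finset.nonempty_iff_ne_empty.2 hn)
      have h2 : ∑ k ∈ P.Q0 lv l, (rP k) ^ 2 ≤ 1 / 4 :=
        (Finset.sum_le_sum_of_subset_of_nonneg (Finset.subset_univ _)
          (fun _ _ _ => sq_nonneg _)).trans hrP
      linarith
  have hD : ∑ k ∈ P.Dd lv l, ((s k + p k + rP k) + (E k + T k + rY k)) ^ 2 ≤
      ∑ k ∈ P.Dd lv l, (s k + p k + rP k) ^ 2 +
        ∑ k ∈ P.Dd lv l, (4 / 5 : ℝ) ^ (l - lv k - P.J) := by
    apply num_dead (P.Dd lv l) P.b0 hb0 (fun k => s k + p k + rP k)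
      (fun k => E k + T k + rY k) (fun k => (4 / 5 : ℝ) ^ (l - lv k - P.J))
      (fun k _ => hwb k) ht
    intro k _
    exact pow_le_one₀ (by norm_num) (by norm_num)
  have hShb : ∑ k ∈ Sh, (s k + p k + E k + T k + (rP k + rY k)) ^ 2 ≤
      ∑ k ∈ Sh, (s k + p k + rP k) ^ 2 + 450 * n0 +
        ∑ k ∈ P.Dd lv l, (4 / 5 : ℝ) ^ (l - lv k - P.J) := by
    rw [show Sh = P.Q0 lv l ∪ P.Dd lv l from hQD, Finset.sum_union hdis, Finset.sum_union hdis]
    have e1 : ∑ k ∈ P.Q0 lv l, (s k + p k + E k + T k + (rP k + rY k)) ^ 2 =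
        ∑ k ∈ P.Q0 lv l, (s k + p k + rP k + E k + T k) ^ 2 :=
      Finset.sum_congr rfl fun k hk => by rw [hY k hk]; ring
    have e2 : ∑ k ∈ P.Dd lv l, (s k + p k + E k + T k + (rP k + rY k)) ^ 2 =
        ∑ k ∈ P.Dd lv l, ((s k + p k + rP k) + (E k + T k + rY k)) ^ 2 :=
      Finset.sum_congr rfl fun k _ => by ring
    rw [e1, e2]
    linarith
  have hSs : ∑ k ∈ Sh, (s k) ^ 2 = ∑ k ∈ Finset.univ.filter (fun k => lv k ≤ l), (s k) ^ 2 := by
    symm
    apply Finset.sum_subset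
    · intro k
      rw [hSh]
      simp only [Finset.mem_filter, Finset.mem_univ, true_and]
      omega
    · intro k _ hk2
      simp only [Finset.mem_filter, Finset.mem_univ, true_and] at hk2
      rw [hs0 k (by omega)]; ring
  -- long part
  have hAb : ∑ k ∈ A, (s k + p k + E k + T k + (rP k + rY k)) ^ 2 ≤ 1152 * n0 + 1158 * A.card := by
    have e1 : ∑ k ∈ A, (s k + p k + E k + T k + (rP k + rY k)) ^ 2 =
        ∑ k ∈ A, (p k + E k + (rP k + rY k)) ^ 2 := by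
      refine Finset.sum_congr rfl fun k hk => ?_
      rw [hA] at hk
      simp only [Finset.mem_filter, Finset.mem_univ, true_and] at hk
      rw [hs0 k (by omega), hT0 k (by omega)]; ring
    rw [e1]
    apply num_long A n0 p E (fun k => rP k + rY k) hp
    · calc ∑ k, (rP k + rY k) ^ 2 ≤ ∑ k, (2 * (rP k) ^ 2 + 2 * (rY k) ^ 2) :=
            Finset.sum_le_sum fun k _ => by nlinarith [sq_nonneg (rP k - rY k)]
        _ = 2 * ∑ k, (rP k) ^ 2 + 2 * ∑ k, (rY k) ^ 2 := by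
            rw [Finset.sum_add_distrib, Finset.mul_sum, Finset.mul_sum]
        _ ≤ 1 := by linarith
    · by_cases hl2 : l' = l + 1
      · have hAe : A = ∅ := by
          rw [hA]
          apply Finset.filter_eq_empty_iff.2
          intro k _; omega
        rw [hAe, Finset.sum_empty]
        exact mul_nonneg (by norm_num) (add_nonneg (Nat.cast_nonneg _) (Nat.cast_nonneg _))
      · have hfe : flg P lv l (l' - (l + 1)) = P.Q0 lv l ∪ A := by
          ext k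
          unfold flg Par.Q0
          rw [hA]
          simp only [Finset.mem_filter, Finset.mem_univ, true_and, Finset.mem_union]
          omega
        have hdis3 : Disjoint (P.Q0 lv l) A := by
          rw [Finset.disjoint_left]
          intro k
          unfold Par.Q0
          rw [hA]
          simp only [Finset.mem_filter, Finset.mem_univ, true_and]
          omega
        have h1 := hE (l' - (l + 1))
        rw [hfe, Finset.sum_union hdis3, Finset.card_union_of_disjoint hdis3] at h1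
        push_cast at h1
        have h2 : 0 ≤ ∑ k ∈ P.Q0 lv l, (E k) ^ 2 := Finset.sum_nonneg fun _ _ => sq_nonneg _
        linarith
  rw [hsplit, Finset.sum_union hdis2, P.BB_succ lv l]
  have hα' : (α : ℝ) ≤ n0 := by exact_mod_cast hα
  have hω : 0 ≤ ∑ k ∈ P.Dd lv l, (4 / 5 : ℝ) ^ (l - lv k - P.J) :=
    Finset.sum_nonneg fun _ _ => by positivity
  have hn00 : (0:ℝ) ≤ n0 := Nat.cast_nonneg _
  linarith

/-- an inherited end point -/
lemma inherit_bound (P : Par d) (lv : Fin d → ℕ) (l : ℕ) (pl p' α : ℕ) (a : Fin d → ℝ)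
    (ha : BdE P lv l pl a) (hp' : p' ≤ pl + α) (hα : α ≤ (P.Q0 lv l).card) :
    BdE P lv (l + 1) p' a := by
  intro l' hl'
  have h1 := ha l' (by omega)
  have h2 := P.BB_mono_succ lv l
  set n0 := (P.Q0 lv l).card with hn0
  have h3 : ((Finset.univ.filter (fun k : Fin d => l < lv k ∧ lv k ≤ l')).card : ℝ) ≤
      n0 + ((Finset.univ.filter (fun k : Fin d => l + 1 < lv k ∧ lv k ≤ l')).card : ℝ) := by
    have hsub : Finset.univ.filter (fun k : Fin d => l < lv k ∧ lv k ≤ l') ⊆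
        P.Q0 lv l ∪ Finset.univ.filter (fun k : Fin d => l + 1 < lv k ∧ lv k ≤ l') := by
      intro k
      unfold Par.Q0
      simp only [Finset.mem_filter, Finset.mem_univ, true_and, Finset.mem_union]
      unfold Par.J
      omega
    exact_mod_cast (Finset.card_le_card hsub).trans (Finset.card_union_le _ _)
  have h4 : (p' : ℝ) ≤ pl + α := by exact_mod_cast hp'
  have h5 : (α : ℝ) ≤ n0 := by exact_mod_cast hα
  have h6 : (0:ℝ) ≤ n0 := Nat.cast_nonneg _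
  linarith

end P262L
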