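import Mathlib

/-! P262: matching inside the classes of `ag`. -/

namespace P262L

theorem exists_pairing {ι : Type} [DecidableEq ι] (Y : Finset ι) (ag : ι → ℕ) :
    ∃ (D U : Finset ι) (f : ι → ι),
      D ⊆ Y ∧ U ⊆ Y ∧ Disjoint D U ∧
      Set.InjOn f D ∧ (∀ i ∈ D, f i ∈ Y ∧ f i ∉ D ∧ f i ∉ U ∧ ag (f i) = ag i) ∧
      (∀ i ∈ Y, i ∈ D ∨ i ∈ U ∨ ∃ j ∈ D, f j = i) ∧
      (∀ j, (U.filter (fun i => ag i = j)).card ≤ 1) := by
  classical
  induction hn : Y.card using Nat.strong_induction_on generalizing Y with
  | _ n ih =>
    by_cases hex : ∃ p ∈ Y, ∃ q ∈ Y, p ≠ q ∧ ag p = ag q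
    · obtain ⟨p, hp, q, hq, hpq, hag⟩ := hex
      set Y' := (Y.erase p).erase q with hY'
      have hqp : q ∈ Y.erase p := Finset.mem_erase.2 ⟨Ne.symm hpq, hq⟩
      have hc : Y'.card < n := by
        rw [hY', Finset.card_erase_of_mem hqp, Finset.card_erase_of_mem hp, hn]
        have : 0 < Y.card := Finset.card_pos.2 ⟨p, hp⟩
        omega
      obtain ⟨D, U, f, hD, hU, hDU, hinj, hf, hcov, hcl⟩ := ih Y'.card hc Y' rfl
      have hpY' : p ∉ Y' := by
        rw [hY', Finset.mem_erase, Finset.mem_erase]; tauto
      have hqY' : q ∉ Y' := by
        rw [hY', Finset.mem_erase]; tauto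
      have hsub : Y' ⊆ Y := (Finset.erase_subset _ _).trans (Finset.erase_subset _ _)
      have hpD : p ∉ D := fun h => hpY' (hD h)
      have hqD : q ∉ D := fun h => hqY' (hD h)
      have hpU : p ∉ U := fun h => hpY' (hU h)
      have hqU : q ∉ U := fun h => hqY' (hU h)
      have hfD : ∀ i ∈ D, Function.update f p q i = f i := by
        intro i hi
        rw [Function.update_of_ne]
        intro h; subst h; exact hpD hi
      refine ⟨insert p D, U, Function.update f p q, ?_, hU.trans hsub, ?_, ?_, ?_, ?_, hcl⟩
      · intro i hi
        rcases Finset.mem_insert.1 hi with h | h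
        · subst h; exact hp
        · exact hsub (hD h)
      · rw [Finset.disjoint_insert_left]
        exact ⟨hpU, hDU⟩
      · intro i hi j hj hij
        rw [Finset.mem_coe, Finset.mem_insert] at hi hj
        rcases hi with hi | hi <;> rcases hj with hj | hj
        · rw [hi, hj]
        · exfalso
          rw [hi, Function.update_self, hfD j hj] at hij
          exact hqY' (hij ▸ (hf j hj).1)
        · exfalso
          rw [hj, Function.update_self, hfD i hi] at hij
          exact hqY' (hij ▸ (hf i hi).1)
        · rw [hfD i hi, hfD j hj] at hij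
          exact hinj hi hj hij
      · intro i hi
        rcases Finset.mem_insert.1 hi with h | h
        · subst h
          rw [Function.update_self]
          refine ⟨hq, ?_, hqU, hag.symm⟩
          rw [Finset.mem_insert]
          rintro (h | h)
          · exact hpq h.symm
          · exact hqD h
        · rw [hfD i h]
          obtain ⟨h1, h2, h3, h4⟩ := hf i h
          refine ⟨hsub h1, ?_, h3, h4⟩
          rw [Finset.mem_insert]
          rintro (h5 | h5)
          · exact hpY' (h5 ▸ h1)
          · exact h2 h5
      · intro i hi
        by_cases h1 : i = p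
        · left; rw [h1]; exact Finset.mem_insert_self _ _
        · by_cases h2 : i = q
          · right; right
            exact ⟨p, Finset.mem_insert_self _ _, by rw [Function.update_self, h2]⟩
          · have h3 : i ∈ Y' := by
              rw [hY', Finset.mem_erase, Finset.mem_erase]; exact ⟨h2, h1, hi⟩
            rcases hcov i h3 with h | h | ⟨j, hj, h⟩
            · left; exact Finset.mem_insert_of_mem h
            · right; left; exact h
            · right; right
              exact ⟨j, Finset.mem_insert_of_mem hj, by rw [hfD j hj, h]⟩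
    · push Not at hex
      refine ⟨∅, Y, id, by simp, Finset.Subset.refl _, by simp, by simp, by simp,
        fun i hi => Or.inr (Or.inl hi), ?_⟩
      intro j
      rw [Finset.card_le_one]
      intro p hp q hq
      rw [Finset.mem_filter] at hp hq
      by_contra hpq
      exact hex p hp.1 q hq.1 hpq (hp.2.trans hq.2.symm)

end P262L
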