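import Vale.Agent.P262L.StepG

/-! P262, bound `√(d log d)`: the recursion and the root. -/

set_option linter.unusedSectionVars false

namespace P262L

open Finset
open scoped Classical

variable {d : ℕ} {ι : Type}

lemma sum_take_toFinset (L : List ι) (hL : L.Nodup) (n : ℕ) (f : ι → ℝ) :
    ((L.take n).map f).sum = ∑ i ∈ (L.take n).toFinset, f i := by
  rw [List.sum_toFinset]
  exact hL.sublist (List.take_sublist n L)

lemma sum_all_toFinset (L : List ι) (hL : L.Nodup) (S : Finset ι) (hS : ∀ i, i ∈ L ↔ i ∈ S)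
    (f : ι → ℝ) : (L.map f).sum = ∑ i ∈ S, f i := by
  rw [← List.sum_toFinset _ hL]
  apply Finset.sum_congr _ (fun _ _ => rfl)
  ext i
  rw [List.mem_toFinset]; exact hS i

/-- bound of the squared norms of end points -/
def Par.bsq (P : Par d) : ℝ := 2000 * ((d : ℝ) * (P.J + 6)) + 1158 * d

lemma end_sq (P : Par d) (lv : Fin d → ℕ) (l p : ℕ) (a : Fin d → ℝ)
    (ha : BdE P lv l p a) : ∑ k, (a k) ^ 2 ≤ P.bsq := by
  obtain ⟨M, hM⟩ : ∃ M, ∀ k, lv k ≤ M := ⟨∑ k, lv k, fun k =>
    Finset.single_le_sum (f := fun k => lv k) (fun _ _ => Nat.zero_le _) (Finset.mem_univ k)⟩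
  have h1 := ha (max l M) (le_max_left _ _)
  have h2 : Finset.univ.filter (fun k => lv k ≤ max l M) = Finset.univ := by
    apply Finset.filter_true_of_mem
    intro k _
    exact (hM k).trans (le_max_right _ _)
  rw [h2] at h1
  have h3 := P.BB_le lv l
  have h4 : ((Finset.univ.filter
      (fun k' : Fin d => l < lv k' ∧ lv k' ≤ max l M)).card : ℝ) ≤ d := by
    have := Finset.card_le_univ
      (Finset.univ.filter (fun k' : Fin d => l < lv k' ∧ lv k' ≤ max l M))
    simp only [Fintype.card_fin] at this
    exact_mod_cast this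
  have h5 : (0:ℝ) ≤ p := Nat.cast_nonneg _
  unfold Par.bsq
  linarith

lemma small_sum (R : Finset ι) (hR : R.card ≤ 2) (v : ι → Fin d → ℝ)
    (hv : ∀ i, ∑ k, (v i k) ^ 2 ≤ 1) : ∑ k, (∑ i ∈ R, v i k) ^ 2 ≤ 4 := by
  have h1 : ∀ k, (∑ i ∈ R, v i k) ^ 2 ≤ R.card * ∑ i ∈ R, (v i k) ^ 2 := fun k =>
    sq_sum_le_card_mul_sum_sq
  calc ∑ k, (∑ i ∈ R, v i k) ^ 2 ≤ ∑ k, (R.card : ℝ) * ∑ i ∈ R, (v i k) ^ 2 :=
        Finset.sum_le_sum fun k _ => h1 k
    _ = R.card * ∑ i ∈ R, ∑ k, (v i k) ^ 2 := by rw [← Finset.mul_sum, Finset.sum_comm]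
    _ ≤ R.card * ∑ i ∈ R, (1:ℝ) := by
        apply mul_le_mul_of_nonneg_left _ (Nat.cast_nonneg _)
        exact Finset.sum_le_sum fun i _ => hv i
    _ = (R.card : ℝ) * R.card := by simp
    _ ≤ 2 * 2 := by
        have : (R.card : ℝ) ≤ 2 := by exact_mod_cast hR
        have h0 : (0:ℝ) ≤ R.card := Nat.cast_nonneg _
        nlinarith
    _ = 4 := by norm_num

lemma add_small (P : Par d) (m : Fin d → ℝ) (hm : ∑ k, (m k) ^ 2 ≤ P.bsq) (R : Finset ι)
    (hR : R.card ≤ 2) (v : ι → Fin d → ℝ) (hv : ∀ i, ∑ k, (v i k) ^ 2 ≤ 1) :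
    ∑ k, (m k + ∑ i ∈ R, v i k) ^ 2 ≤ 2 * P.bsq + 8 := by
  have h1 := small_sum R hR v hv
  calc ∑ k, (m k + ∑ i ∈ R, v i k) ^ 2 ≤
      ∑ k, (2 * (m k) ^ 2 + 2 * (∑ i ∈ R, v i k) ^ 2) :=
        Finset.sum_le_sum fun k _ => by nlinarith [sq_nonneg (m k - ∑ i ∈ R, v i k)]
    _ = 2 * ∑ k, (m k) ^ 2 + 2 * ∑ k, (∑ i ∈ R, v i k) ^ 2 := by
        rw [Finset.sum_add_distrib, Finset.mul_sum, Finset.mul_sum]
    _ ≤ _ := by linarith

theorem main_rec (P : Par d) (G : P.Good) (lam : Fin d → ℝ) (lv : Fin d → ℕ)
    (hlv : ∀ l k, l < lv k ↔ P.Lam ≤ lam k / 2 ^ l) (hlam : ∀ k, 0 ≤ lam k)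
    (v : ι → Fin d → ℝ) (hv : ∀ i, ∑ k, (v i k) ^ 2 ≤ 1) :
    ∀ (N : ℕ) (l : ℕ) (S : Finset ι) (age : ι → ℕ), mu P S age ≤ N →
      InvS P v lam lv l S age → ∀ a b : Fin d → ℝ,
      (∀ k, b k = a k + ∑ i ∈ S, v i k) →
      BdE P lv l (S.filter (fun i => age i = P.K + 1)).card a →
      BdE P lv l (S.filter (fun i => age i = P.K + 1)).card b →
      ∃ L : List ι, L.Nodup ∧ (∀ i, i ∈ L ↔ i ∈ S) ∧
        ∀ (n : ℕ), ∑ k, (a k + ((L.take n).map (fun i => v i k)).sum) ^ 2 ≤ 2 * P.bsq + 8 := by
  intro N
  induction N with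
  | zero =>
    intro l S age hmu I a b _ ha _
    have hS : S = ∅ := by
      by_contra hne
      obtain ⟨i, hi⟩ := Finset.nonempty_iff_ne_empty.2 hne
      have h1 : wt P (age i) ≤ mu P S age :=
        Finset.single_le_sum (f := fun i => wt P (age i)) (fun _ _ => Nat.zero_le _) hi
      have h2 := wt_pos P _ (I.age_le i hi)
      omega
    subst hS
    refine ⟨[], List.nodup_nil, fun i => by simp, fun n => ?_⟩
    have h1 := add_small P a (end_sq P lv l _ a ha) (∅ : Finset ι) (by simp) v hv
    simpa using h1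
  | succ N ih =>
    intro l S age hmu I a b hab ha hb
    by_cases hS : ∃ i ∈ S, age i ≤ P.K
    · obtain ⟨SL, SR, R, ag, hdis, hRS, hun, hRc, IL, IR, hBa, hBm1, hBm2, hBb, hmuL, hmuR⟩ :=
        step P G lam lv hlv hlam v hv l S age I hS a b hab ha hb
      have hSsum : ∀ k, ∑ i ∈ S, v i k = ∑ i ∈ SL, v i k + ∑ i ∈ SR, v i k + ∑ i ∈ R, v i k := by
        intro k
        rw [← Finset.sum_union hdis, hun]
        exact (Finset.sum_sdiff hRS).symm
      obtain ⟨L1, hL1n, hL1m, hL1⟩ := ih (l + 1) SL ag (by omega) IL a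
        (fun k => a k + ∑ i ∈ SL, v i k) (fun k => rfl) hBa hBm1
      obtain ⟨L2, hL2n, hL2m, hL2⟩ := ih (l + 1) SR ag (by omega) IR
        (fun k => a k + ∑ i ∈ SL, v i k + ∑ i ∈ R, v i k) b
        (fun k => by rw [hab k, hSsum k]; ring) hBm2 hBb
      have hTS : ∀ i, i ∈ S ↔ (i ∈ SL ∨ i ∈ SR) ∨ i ∈ R := by
        intro i
        rw [← Finset.mem_union, hun, Finset.mem_sdiff]
        constructor
        · intro h
          by_cases h1 : i ∈ R
          · right; exact h1
          · left; exact ⟨h, h1⟩
        · rintro (h | h)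
          · exact h.1
          · exact hRS h
      have hSLR : ∀ i, i ∈ SL → i ∉ R := by
        intro i h h2
        have h3 : i ∈ SL ∪ SR := Finset.mem_union_left _ h
        rw [hun, Finset.mem_sdiff] at h3
        exact h3.2 h2
      have hSRR : ∀ i, i ∈ SR → i ∉ R := by
        intro i h h2
        have h3 : i ∈ SL ∪ SR := Finset.mem_union_right _ h
        rw [hun, Finset.mem_sdiff] at h3
        exact h3.2 h2
      refine ⟨L1 ++ (R.toList ++ L2), ?_, ?_, ?_⟩
      · rw [List.nodup_append, List.nodup_append]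
        refine ⟨hL1n, ⟨Finset.nodup_toList R, hL2n, ?_⟩, ?_⟩
        · intro x hx y hy hxy
          subst hxy
          rw [Finset.mem_toList] at hx
          exact hSRR x ((hL2m x).1 hy) hx
        · intro x hx y hy hxy
          subst hxy
          rw [List.mem_append, Finset.mem_toList] at hy
          have hx' := (hL1m x).1 hx
          rcases hy with h | h
          · exact hSLR x hx' h
          · exact (Finset.disjoint_left.1 hdis) hx' ((hL2m x).1 h)
      · intro i
        rw [List.mem_append, List.mem_append, Finset.mem_toList, hL1m, hL2m, hTS]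
        tauto
      · intro n
        have hexp : ∀ k, (((L1 ++ (R.toList ++ L2)).take n).map (fun i => v i k)).sum =
            ((L1.take n).map (fun i => v i k)).sum +
              (((R.toList.take (n - L1.length)).map (fun i => v i k)).sum +
              ((L2.take (n - L1.length - R.toList.length)).map (fun i => v i k)).sum) := by
          intro k
          rw [List.take_append, List.take_append, List.map_append, List.map_append,
            List.sum_append, List.sum_append]
        rcases Nat.le_total n L1.length with hn | hn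
        · have e1 : n - L1.length = 0 := by omega
          have h0 := hL1 n
          calc _ = ∑ k, (a k + ((L1.take n).map (fun i => v i k)).sum) ^ 2 := by
                refine Finset.sum_congr rfl fun k _ => ?_
                rw [hexp k, e1]
                simp only [List.take_zero, List.map_nil, List.sum_nil, Nat.zero_sub, add_zero]
            _ ≤ _ := h0
        · have e1 : L1.take n = L1 := List.take_of_length_le hn
          rcases Nat.le_total (n - L1.length) R.toList.length with hn2 | hn2
          · have e2 : n - L1.length - R.toList.length = 0 := by omega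
            set R' := (R.toList.take (n - L1.length)).toFinset with hR'
            have hR'R : R' ⊆ R := by
              intro i hi
              rw [hR', List.mem_toFinset] at hi
              exact (Finset.mem_toList).1 (List.mem_of_mem_take hi)
            have h0 := add_small P (fun k => a k + ∑ i ∈ SL, v i k)
              (end_sq P lv (l + 1) _ _ hBm1) R' ((Finset.card_le_card hR'R).trans hRc) v hv
            calc _ = ∑ k, (a k + ∑ i ∈ SL, v i k + ∑ i ∈ R', v i k) ^ 2 := by
                  refine Finset.sum_congr rfl fun k _ => ?_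
                  rw [hexp k, e1, e2, sum_all_toFinset L1 hL1n SL hL1m,
                    sum_take_toFinset _ (Finset.nodup_toList R)]
                  simp only [List.take_zero, List.map_nil, List.sum_nil, add_zero]
                  rw [add_assoc]
              _ ≤ _ := h0
          · have e2 : R.toList.take (n - L1.length) = R.toList := List.take_of_length_le hn2
            have h0 := hL2 (n - L1.length - R.toList.length)
            calc _ = ∑ k, (a k + ∑ i ∈ SL, v i k + ∑ i ∈ R, v i k +
                  ((L2.take (n - L1.length - R.toList.length)).map (fun i => v i k)).sum) ^ 2 := by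
                  refine Finset.sum_congr rfl fun k _ => ?_
                  rw [hexp k, e1, e2, sum_all_toFinset L1 hL1n SL hL1m,
                    sum_all_toFinset R.toList (Finset.nodup_toList R) R
                    (fun i => Finset.mem_toList)]
                  rw [add_assoc, add_assoc]
              _ ≤ _ := h0
    · push Not at hS
      have hSc : S.card ≤ 2 := by
        have h1 : S.filter (fun i => age i = P.K + 1) = S := by
          apply Finset.filter_true_of_mem
          intro i hi
          have h2 := hS i hi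
          have h3 := I.age_le i hi
          omega
        have h2 := I.pool
        rwa [h1] at h2
      refine ⟨S.toList, Finset.nodup_toList S, fun i => Finset.mem_toList, fun n => ?_⟩
      set R' := (S.toList.take n).toFinset with hR'
      have hR'S : R' ⊆ S := by
        intro i hi
        rw [hR', List.mem_toFinset] at hi
        exact (Finset.mem_toList).1 (List.mem_of_mem_take hi)
      have h0 := add_small P a (end_sq P lv l _ a ha) R' ((Finset.card_le_card hR'S).trans hSc) v hv
      calc _ = ∑ k, (a k + ∑ i ∈ R', v i k) ^ 2 := by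
            refine Finset.sum_congr rfl fun k _ => ?_
            rw [sum_take_toFinset _ (Finset.nodup_toList S)]
        _ ≤ _ := h0

lemma exists_lv (Lam : ℝ) (hL : 0 < Lam) (lam : ℝ) (hlam : 0 ≤ lam) :
    ∃ n : ℕ, ∀ l : ℕ, l < n ↔ Lam ≤ lam / 2 ^ l := by
  have hex : ∃ n : ℕ, lam / 2 ^ n < Lam := by
    obtain ⟨n, hn⟩ := pow_unbounded_of_one_lt (lam / Lam) (by norm_num : (1:ℝ) < 2)
    refine ⟨n, ?_⟩
    rw [div_lt_iff₀ hL] at hn
    rw [div_lt_iff₀ (by positivity)]
    linarith
  refine ⟨Nat.find hex, fun l => ?_⟩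
  constructor
  · intro h
    have := Nat.find_min hex h
    push Not at this; exact this
  · intro h
    by_contra hcon
    push Not at hcon
    have h1 := Nat.find_spec hex
    have h2 : lam / 2 ^ l ≤ lam / 2 ^ (Nat.find hex) := by
      apply div_le_div_of_nonneg_left hlam (by positivity)
      exact pow_le_pow_right₀ (by norm_num) hcon
    linarith

theorem core_par (P : Par d) (G : P.Good) [Fintype ι] (v : ι → Fin d → ℝ)
    (hv : ∀ i, ∑ k, (v i k) ^ 2 ≤ 1)
    (horth : ∀ k l, k ≠ l → ∑ i, v i k * v i l = 0) (hsum : ∀ k, ∑ i, v i k = 0) :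
    ∃ L : List ι, L.Nodup ∧ (∀ i, i ∈ L) ∧
      ∀ (n : ℕ), ∑ k, (((L.take n).map (fun i => v i k)).sum) ^ 2 ≤ 2 * P.bsq + 8 := by
  set lam : Fin d → ℝ := fun k => ∑ i, (v i k) ^ 2 with hlamdef
  have hlam : ∀ k, 0 ≤ lam k := fun k => Finset.sum_nonneg fun _ _ => sq_nonneg _
  choose lv hlv' using fun k => exists_lv P.Lam G.hL0 (lam k) (hlam k)
  have hlv : ∀ l k, l < lv k ↔ P.Lam ≤ lam k / 2 ^ l := fun l k => hlv' k l
  have hfil : (Finset.univ : Finset ι).filter (fun _ => (0:ℕ) = 0) = Finset.univ := by
    simp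
  have hfil2 : ∀ j : ℕ, 1 ≤ j → (Finset.univ : Finset ι).filter (fun _ => (0:ℕ) = j) = ∅ := by
    intro j hj
    apply Finset.filter_eq_empty_iff.2
    intro _ _; omega
  have I : InvS P v lam lv 0 Finset.univ (fun _ : ι => 0) := by
    refine ⟨fun _ _ => Nat.zero_le _, ?_, ?_, ?_, ?_, ?_⟩
    · intro j hj1 _
      rw [hfil2 j hj1]
      simp only [Finset.card_empty, Nat.cast_zero]
      positivity
    · rw [hfil2 (P.K + 1) (by omega)]; simp
    · intro u
      have e : ∑ i ∈ (Finset.univ : Finset ι).filter (fun _ => (0:ℕ) = 0),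
          (∑ k, v i k * u k) ^ 2 = ∑ k, lam k / 2 ^ 0 * (u k) ^ 2 := by
        rw [hfil]
        calc ∑ i, (∑ k, v i k * u k) ^ 2
            = ∑ i, ∑ k, ∑ l, (u k * u l) * (v i k * v i l) := by
              refine Finset.sum_congr rfl fun i _ => ?_
              rw [sq, Finset.sum_mul_sum]
              exact Finset.sum_congr rfl fun k _ => Finset.sum_congr rfl fun l _ => by ring
          _ = ∑ k, ∑ l, (u k * u l) * ∑ i, v i k * v i l := by
              rw [Finset.sum_comm]
              refine Finset.sum_congr rfl fun k _ => ?_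
              rw [Finset.sum_comm]
              exact Finset.sum_congr rfl fun l _ => by rw [Finset.mul_sum]
          _ = ∑ k, lam k / 2 ^ 0 * (u k) ^ 2 := by
              refine Finset.sum_congr rfl fun k _ => ?_
              rw [Finset.sum_eq_single k]
              · rw [pow_zero, div_one, hlamdef]
                have : ∑ i, v i k * v i k = ∑ i, (v i k) ^ 2 :=
                  Finset.sum_congr rfl fun i _ => by ring
                rw [this]; ring
              · intro l _ hl
                rw [horth k l (Ne.symm hl)]; ring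
              · intro h; exact absurd (Finset.mem_univ k) h
      rw [e, sub_self, abs_zero]
      have h1 : 0 ≤ dl P lam 0 := dl_nonneg P G lam lv hlv hlam 0
      have h2 : 0 ≤ ∑ k, lam k / 2 ^ 0 * (u k) ^ 2 := Finset.sum_nonneg fun k _ =>
        mul_nonneg (div_nonneg (hlam k) (by positivity)) (sq_nonneg _)
      have h3 : 0 ≤ P.CQ := by unfold Par.CQ; positivity
      have h4 : 0 ≤ ∑ k, (u k) ^ 2 := Finset.sum_nonneg fun _ _ => sq_nonneg _
      positivity
    · intro k hk
      rw [hfil]
      have h1 : ¬ (P.Lam ≤ lam k / 2 ^ 0) := by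
        rw [← hlv 0 k]; omega
      push Not at h1
      rw [pow_zero, div_one] at h1
      have e : 0 - lv k = 0 := by omega
      rw [e, pow_zero]
      have hL := G.hL0
      have : ∑ i, (v i k) ^ 2 = lam k := rfl
      rw [this]
      linarith
    · intro i _ h
      omega
  have hB0 : BdE P lv 0 ((Finset.univ : Finset ι).filter
      (fun _ => (0:ℕ) = P.K + 1)).card (fun _ => 0) := by
    intro l' _
    rw [hfil2 (P.K + 1) (by omega)]
    have h1 := P.BB_nonneg lv 0
    simp only [Finset.card_empty, Nat.cast_zero, add_zero]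
    have h2 : ∑ k ∈ Finset.univ.filter (fun k : Fin d => lv k ≤ l'), (0:ℝ) ^ 2 = 0 := by
      apply Finset.sum_eq_zero
      intro _ _; norm_num
    rw [h2]
    have h3 : (0:ℝ) ≤ ((Finset.univ.filter (fun k : Fin d => 0 < lv k ∧ lv k ≤ l')).card : ℝ) :=
      Nat.cast_nonneg _
    linarith
  obtain ⟨L, h1, h2, h3⟩ := main_rec P G lam lv hlv hlam v hv _ 0 Finset.univ (fun _ => 0) le_rfl I
    (fun _ => 0) (fun _ => 0) (fun k => by rw [hsum k]; ring) hB0 hB0
  refine ⟨L, h1, fun i => (h2 i).2 (Finset.mem_univ i), fun n => ?_⟩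
  have := h3 n
  simpa only [zero_add] using this

end P262L
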