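import Vale.Agent.P262L.StepA

/-! P262: the tilt of a node. -/

set_option linter.unusedSectionVars false

namespace P262L

open Finset

variable {d : ℕ} {ι : Type} [DecidableEq ι]

lemma Par.Good.b0_ge {P : Par d} (G : P.Good) : 30 ≤ P.b0 := by
  have h := G.hb1
  have : (0:ℝ) ≤ d := Nat.cast_nonneg _
  linarith

lemma sum_bilin (W : Finset ι) (v : ι → Fin d → ℝ) (a b : Fin d → ℝ) (x y : ℝ) :
    ∑ i ∈ W, (∑ k, v i k * (x * a k + y * b k)) ^ 2 =
      x ^ 2 * ∑ i ∈ W, (∑ k, v i k * a k) ^ 2 + y ^ 2 * ∑ i ∈ W, (∑ k, v i k * b k) ^ 2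
        + 2 * x * y * ∑ i ∈ W, (∑ k, v i k * a k) * (∑ k, v i k * b k) := by
  rw [Finset.mul_sum, Finset.mul_sum, Finset.mul_sum, ← Finset.sum_add_distrib,
    ← Finset.sum_add_distrib]
  refine Finset.sum_congr rfl fun i _ => ?_
  have : ∑ k, v i k * (x * a k + y * b k) = x * ∑ k, v i k * a k + y * ∑ k, v i k * b k := by
    rw [Finset.mul_sum, Finset.mul_sum, ← Finset.sum_add_distrib]
    exact Finset.sum_congr rfl fun k _ => by ring
  rw [this]; ring

lemma sum_diag_bilin (L : Fin d → ℝ) (a b : Fin d → ℝ) (x y : ℝ) :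
    ∑ k, L k * (x * a k + y * b k) ^ 2 =
      x ^ 2 * ∑ k, L k * (a k) ^ 2 + y ^ 2 * ∑ k, L k * (b k) ^ 2
        + 2 * x * y * ∑ k, L k * (a k * b k) := by
  rw [Finset.mul_sum, Finset.mul_sum, Finset.mul_sum, ← Finset.sum_add_distrib,
    ← Finset.sum_add_distrib]
  exact Finset.sum_congr rfl fun k _ => by ring

/-- Off-diagonal bound from closeness of quadratic forms. -/
lemma offdiag (W : Finset ι) (v : ι → Fin d → ℝ) (L : Fin d → ℝ) (δ C : ℝ)
    (hcl : ∀ u : Fin d → ℝ, |∑ i ∈ W, (∑ k, v i k * u k) ^ 2 - ∑ k, L k * (u k) ^ 2| ≤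
      δ * ∑ k, L k * (u k) ^ 2 + C * ∑ k, (u k) ^ 2)
    (a b : Fin d → ℝ) (hab : ∑ k, L k * (a k * b k) = 0) (t : ℝ) (ht : 0 < t) :
    |∑ i ∈ W, (∑ k, v i k * a k) * (∑ k, v i k * b k)| ≤
      (1 / 2) * ((δ * ∑ k, L k * (a k) ^ 2 + C * ∑ k, (a k) ^ 2) / t
        + t * (δ * ∑ k, L k * (b k) ^ 2 + C * ∑ k, (b k) ^ 2)) := by
  have h1 := hcl (fun k => 1 * a k + t * b k)
  have h2 := hcl (fun k => 1 * a k + (-t) * b k)
  rw [sum_bilin, sum_diag_bilin] at h1 h2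
  have e1 : ∑ k, (1 * a k + t * b k) ^ 2 =
      1 ^ 2 * ∑ k, (a k) ^ 2 + t ^ 2 * ∑ k, (b k) ^ 2 + 2 * 1 * t * ∑ k, (a k * b k) := by
    have := sum_diag_bilin (fun _ => (1:ℝ)) a b 1 t
    simpa using this
  have e2 : ∑ k, (1 * a k + (-t) * b k) ^ 2 =
      1 ^ 2 * ∑ k, (a k) ^ 2 + (-t) ^ 2 * ∑ k, (b k) ^ 2 + 2 * 1 * (-t) * ∑ k, (a k * b k) := by
    have := sum_diag_bilin (fun _ => (1:ℝ)) a b 1 (-t)
    simpa using this
  rw [e1] at h1
  rw [e2] at h2
  rw [hab] at h1 h2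
  set X := ∑ i ∈ W, (∑ k, v i k * a k) * (∑ k, v i k * b k)
  set A := ∑ i ∈ W, (∑ k, v i k * a k) ^ 2
  set B := ∑ i ∈ W, (∑ k, v i k * b k) ^ 2
  set LA := ∑ k, L k * (a k) ^ 2
  set LB := ∑ k, L k * (b k) ^ 2
  set SA := ∑ k, (a k) ^ 2
  set SB := ∑ k, (b k) ^ 2
  set AB := ∑ k, (a k * b k)
  have hmain : |4 * t * X| ≤ 2 * (δ * LA + C * SA) + 2 * t ^ 2 * (δ * LB + C * SB) := by
    rw [abs_le] at h1 h2 ⊢
    constructor <;> nlinarith [h1.1, h1.2, h2.1, h2.2]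
  have h4 : |4 * t * X| = 4 * t * |X| := by
    rw [abs_mul, abs_of_pos (by positivity : (0:ℝ) < 4 * t)]
  rw [h4] at hmain
  have h5 : (1 / 2) * ((δ * LA + C * SA) / t + t * (δ * LB + C * SB)) * (4 * t) =
      2 * (δ * LA + C * SA) + 2 * t ^ 2 * (δ * LB + C * SB) := by
    field_simp
    ring
  have h6 : |X| * (4 * t) ≤ (1 / 2) * ((δ * LA + C * SA) / t + t * (δ * LB + C * SB)) * (4 * t) := by
    rw [h5]; linarith
  exact le_of_mul_le_mul_right h6 (by positivity)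


/-- sum of `1/λ̂` over the long coordinates -/
noncomputable def sl (lam : Fin d → ℝ) (lv : Fin d → ℕ) (l : ℕ) : ℝ :=
  ∑ k ∈ Finset.univ.filter (fun k => l < lv k), (2 : ℝ) ^ l / lam k

section
variable (P : Par d) (G : P.Good) (lam : Fin d → ℝ) (lv : Fin d → ℕ)
  (hlv : ∀ l k, l < lv k ↔ P.Lam ≤ lam k / 2 ^ l)
include G hlv

lemma long_le {l : ℕ} {k : Fin d} (hk : l < lv k) :
    0 < lam k ∧ (2 : ℝ) ^ l / lam k ≤ 1 / P.Lam := by
  have h := (hlv l k).1 hk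
  have h2 : (0:ℝ) < 2 ^ l := by positivity
  have h0 : 0 < lam k / 2 ^ l := lt_of_lt_of_le G.hL0 h
  have hpos : 0 < lam k := by
    have := mul_pos h0 h2
    rwa [div_mul_cancel₀ _ h2.ne'] at this
  refine ⟨hpos, ?_⟩
  rw [div_le_div_iff₀ hpos G.hL0]
  rw [le_div_iff₀ h2] at h
  linarith

lemma sl_nonneg (l : ℕ) : 0 ≤ sl lam lv l := by
  refine Finset.sum_nonneg fun k hk => ?_
  have := (long_le P G lam lv hlv (Finset.mem_filter.1 hk).2).1
  positivity

lemma sl_le (l : ℕ) : sl lam lv l ≤ d / P.Lam := by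
  unfold sl
  calc _ ≤ ∑ k ∈ Finset.univ.filter (fun k => l < lv k), 1 / P.Lam :=
        Finset.sum_le_sum fun k hk => (long_le P G lam lv hlv (Finset.mem_filter.1 hk).2).2
    _ = ((Finset.univ.filter (fun k => l < lv k)).card : ℝ) * (1 / P.Lam) := by
        rw [Finset.sum_const, nsmul_eq_mul]
    _ ≤ (d : ℝ) * (1 / P.Lam) := by
        apply mul_le_mul_of_nonneg_right
        · have := Finset.card_filter_le (Finset.univ : Finset (Fin d)) (fun k => l < lv k)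
          simp only [Finset.card_univ, Fintype.card_fin] at this
          exact_mod_cast this
        · exact div_nonneg zero_le_one G.hL0.le
    _ = d / P.Lam := by ring

lemma dl_step (hlam : ∀ k, 0 ≤ lam k) (l : ℕ) :
    dl P lam l + 8 * P.b0 * sl lam lv l ≤ dl P lam (l + 1) := by
  unfold dl sl
  rw [← mul_add]
  apply mul_le_mul_of_nonneg_left _ (by linarith [G.b0_ge])
  rw [Finset.sum_filter, ← Finset.sum_add_distrib]
  refine Finset.sum_le_sum fun k _ => ?_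
  split_ifs with hk
  · have h1 := long_le P G lam lv hlv hk
    have e1 : min ((2:ℝ) ^ l / lam k) (2 / P.Lam) = (2:ℝ) ^ l / lam k := by
      apply min_eq_left
      have : (2:ℝ) / P.Lam = 2 * (1 / P.Lam) := by ring
      have h3 : 0 ≤ 1 / P.Lam := div_nonneg zero_le_one G.hL0.le
      linarith [h1.2]
    have e2 : min ((2:ℝ) ^ (l+1) / lam k) (2 / P.Lam) = (2:ℝ) ^ (l+1) / lam k := by
      apply min_eq_left
      have : (2:ℝ) / P.Lam = 2 * (1 / P.Lam) := by ring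
      rw [this, pow_succ, mul_comm ((2:ℝ)^l) 2, mul_div_assoc]
      linarith [h1.2]
    rw [e1, e2, pow_succ, mul_comm ((2:ℝ)^l) 2, mul_div_assoc]
    linarith
  · rw [add_zero]
    apply min_le_min_right
    apply div_le_div_of_nonneg_right _ (hlam k)
    exact pow_le_pow_right₀ (by norm_num) (Nat.le_succ l)

lemma dl_nonneg (hlam : ∀ k, 0 ≤ lam k) (l : ℕ) : 0 ≤ dl P lam l := by
  unfold dl
  apply mul_nonneg (by linarith [G.b0_ge])
  refine Finset.sum_nonneg fun k _ => le_min ?_ ?_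
  · exact div_nonneg (by positivity) (hlam k)
  · exact div_nonneg (by norm_num) G.hL0.le

lemma dl_le (l : ℕ) : dl P lam l ≤ 16 * P.b0 * d / P.Lam := by
  unfold dl
  calc _ ≤ 8 * P.b0 * ∑ k : Fin d, 2 / P.Lam := by
        apply mul_le_mul_of_nonneg_left _ (by linarith [G.b0_ge])
        exact Finset.sum_le_sum fun k _ => min_le_right _ _
    _ = 16 * P.b0 * d / P.Lam := by
        rw [Finset.sum_const, Finset.card_univ, Fintype.card_fin, nsmul_eq_mul]; ring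

lemma dl_le_quarter (l : ℕ) : dl P lam l ≤ 1 / 4 := by
  refine (dl_le P G lam lv hlv l).trans ?_
  rw [div_le_iff₀ G.hL0]
  have := G.hL1
  have hb := G.b0_ge
  nlinarith

lemma eps_le (l : ℕ) : 2 * P.b0 * sl lam lv l ≤ 1 / 32 := by
  have h1 := sl_le P G lam lv hlv l
  have hb := G.b0_ge
  have h2 : 2 * P.b0 * sl lam lv l ≤ 2 * P.b0 * (d / P.Lam) :=
    mul_le_mul_of_nonneg_left h1 (by linarith)
  refine h2.trans ?_
  rw [← mul_div_assoc, div_le_iff₀ G.hL0]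
  have := G.hL1
  nlinarith

end

end P262L
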