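import Vale.Agent.P262L.StepB

/-! P262: the tilt of a node. -/

set_option linter.unusedSectionVars false

namespace P262L

open Finset

variable {d : ℕ} {ι : Type} [DecidableEq ι]

lemma quad_single (v : ι → Fin d → ℝ) (k : Fin d) (i : ι) :
    ∑ j, v i j * (Pi.single k (1:ℝ) : Fin d → ℝ) j = v i k := by
  rw [Finset.sum_eq_single k]
  · simp
  · intro b _ hb; simp [hb]
  · intro h; exact absurd (Finset.mem_univ k) h

lemma num_aux1 (s L b : ℝ) (d : ℕ) (hs : 0 ≤ s) (h1 : s * L ≤ d) (h2 : 2 * b ^ 2 * d ^ 2 ≤ L) :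
    (4 * b ^ 2 * s ^ 2) * (d * b ^ 2) ≤ 1 := by
  by_cases hd : d = 0
  · subst hd; simp
  have hd1 : (1:ℝ) ≤ d := by exact_mod_cast Nat.one_le_iff_ne_zero.2 hd
  have r7 : s * (2 * b ^ 2 * d) ≤ 1 := by
    have t1 : s * (2 * b ^ 2 * d ^ 2) ≤ s * L := mul_le_mul_of_nonneg_left h2 hs
    have t2 : (s * (2 * b ^ 2 * d)) * d ≤ 1 * d := by
      have : (s * (2 * b ^ 2 * d)) * d = s * (2 * b ^ 2 * d ^ 2) := by ring
      rw [this, one_mul]; exact t1.trans h1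
    exact le_of_mul_le_mul_right t2 (by linarith)
  have r8 : 0 ≤ s * (2 * b ^ 2 * d) := by positivity
  have r9 : (s * (2 * b ^ 2 * d)) ^ 2 ≤ 1 := pow_le_one₀ r8 r7
  have r10 : 4 * b ^ 2 * s ^ 2 * (d * b ^ 2) * d = (s * (2 * b ^ 2 * d)) ^ 2 := by ring
  have r11 : 0 ≤ 4 * b ^ 2 * s ^ 2 * (d * b ^ 2) := by positivity
  calc 4 * b ^ 2 * s ^ 2 * (d * b ^ 2) ≤ 4 * b ^ 2 * s ^ 2 * (d * b ^ 2) * d :=
        le_mul_of_one_le_right r11 hd1
    _ ≤ 1 := by rw [r10]; exact r9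

lemma num_aux2 (D s L b C q2 q3 lk : ℝ) (d : ℝ) (hd : 1 ≤ d) (hL : 0 < L) (hD : 0 ≤ D) (hC : 0 ≤ C)
    (hs : 0 ≤ s) (hsL : s * L ≤ d) (hsd : s ≤ d / L) (hq2 : q2 ≤ 4 * b ^ 2 * s)
    (hq3 : q3 ≤ 4 * b ^ 2 * s ^ 2) (hlk : lk ≤ L) (hb : 0 < b) (hDle : D ≤ 16 * b * d / L)
    (h3 : (16 * b + C) * d * (1 + 2 * b ^ 2 * d) * (8 * b) ≤ L) :
    (1 / 2) * ((D * q2 + C * q3) / (1 / L) + 1 / L * (D * lk + C * 1)) ≤ 1 / (8 * b) := by
  have hA : (D * q2 + C * q3) / (1 / L) ≤ 4 * b ^ 2 * d * (D + C * d / L) := by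
    rw [div_div_eq_mul_div, div_one]
    have p1 : D * q2 ≤ D * (4 * b ^ 2 * s) := mul_le_mul_of_nonneg_left hq2 hD
    have p2 : C * q3 ≤ C * (4 * b ^ 2 * s ^ 2) := mul_le_mul_of_nonneg_left hq3 hC
    have p3 : (D * q2 + C * q3) * L ≤
        (D * (4 * b ^ 2 * s) + C * (4 * b ^ 2 * s ^ 2)) * L :=
      mul_le_mul_of_nonneg_right (add_le_add p1 p2) hL.le
    refine p3.trans ?_
    have p4 : (D * (4 * b ^ 2 * s) + C * (4 * b ^ 2 * s ^ 2)) * L =
        4 * b ^ 2 * (D * (s * L) + C * (s * L) * s) := by ring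
    rw [p4, mul_assoc (4 * b ^ 2) d _]
    apply mul_le_mul_of_nonneg_left _ (by positivity)
    have p5 : D * (s * L) ≤ D * d := mul_le_mul_of_nonneg_left hsL hD
    have p6 : C * (s * L) * s ≤ C * d * (d / L) := by
      apply mul_le_mul _ hsd hs (by positivity)
      exact mul_le_mul_of_nonneg_left hsL hC
    have p7 : d * (D + C * d / L) = D * d + C * d * (d / L) := by ring
    rw [p7]; linarith
  have hB : 1 / L * (D * lk + C * 1) ≤ D + C / L := by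
    have q1 : D * lk ≤ D * L := mul_le_mul_of_nonneg_left hlk hD
    have q2 : 1 / L * (D * lk + C * 1) ≤ 1 / L * (D * L + C * 1) :=
      mul_le_mul_of_nonneg_left (by linarith) (by positivity)
    refine q2.trans (le_of_eq ?_)
    field_simp
  have hC1d : C / L ≤ C * d / L := by
    apply div_le_div_of_nonneg_right _ hL.le
    exact le_mul_of_one_le_right hC hd
  set X := (16 * b + C) * d / L with hX
  have hX0 : 0 ≤ X := by positivity
  have hDX : D + C * d / L ≤ X := by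
    have : X = 16 * b * d / L + C * d / L := by rw [hX]; ring
    rw [this]; linarith
  have hX1 : X * (1 + 2 * b ^ 2 * d) ≤ 1 / (8 * b) := by
    rw [hX, div_mul_eq_mul_div, div_le_div_iff₀ hL (by positivity)]
    linarith
  have r1 : 4 * b ^ 2 * d * (D + C * d / L) ≤ 4 * b ^ 2 * d * X :=
    mul_le_mul_of_nonneg_left hDX (by positivity)
  have r2 : D + C / L ≤ X := by linarith
  have r3 : X * (1 + 2 * b ^ 2 * d) = X + (4 * b ^ 2 * d * X) / 2 := by ring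
  linarith

lemma tilt_step (P : Par d) (G : P.Good) (lam : Fin d → ℝ) (lv : Fin d → ℕ)
    (hlv : ∀ l k, l < lv k ↔ P.Lam ≤ lam k / 2 ^ l) (hlam : ∀ k, 0 ≤ lam k)
    (v : ι → Fin d → ℝ) (l : ℕ) (W : Finset ι) (hv : ∀ i ∈ W, ∑ k, (v i k) ^ 2 ≤ 1)
    (hcl : ∀ u : Fin d → ℝ,
      |∑ i ∈ W, (∑ k, v i k * u k) ^ 2 - ∑ k, lam k / 2 ^ l * (u k) ^ 2| ≤
        dl P lam l * ∑ k, lam k / 2 ^ l * (u k) ^ 2 + P.C1 * ∑ k, (u k) ^ 2)
    (c : Fin d → ℝ) (hc : ∀ k, l < lv k → |c k| ≤ P.b0) :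
    ∃ g : Fin d → ℝ,
      (∀ k, l < lv k → ∑ i ∈ W, (∑ j, v i j * g j) * v i k = c k) ∧
      (∀ i ∈ W, |∑ j, v i j * g j| ≤ 2 * P.b0 * sl lam lv l) ∧
      (∀ k, lv k ≤ l → |∑ i ∈ W, (∑ j, v i j * g j) * v i k| ≤ 1 / (8 * P.b0)) ∧
      (∀ k, lv k ≤ l → (∑ i ∈ W, (∑ j, v i j * g j) * v i k) ^ 2 ≤ ∑ i ∈ W, (v i k) ^ 2) := by
  classical
  set Lg : Finset (Fin d) := Finset.univ.filter (fun k => l < lv k) with hLg
  set lh : Fin d → ℝ := fun k => lam k / 2 ^ l with hlh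
  have hb0 := G.b0_ge
  have hL0 := G.hL0
  have hmem : ∀ k, k ∈ Lg ↔ l < lv k := fun k => by simp [hLg]
  have hlhL : ∀ k ∈ Lg, P.Lam ≤ lh k := fun k hk => (hlv l k).1 ((hmem k).1 hk)
  have hlh0 : ∀ k, 0 ≤ lh k := fun k => div_nonneg (hlam k) (by positivity)
  have hlhpos : ∀ k ∈ Lg, 0 < lh k := fun k hk => lt_of_lt_of_le hL0 (hlhL k hk)
  have hC1 : 0 ≤ P.C1 := by
    unfold Par.C1 Par.CQ; positivity
  have hC1L : P.C1 / P.Lam ≤ 1 / 4 := by
    rw [div_le_iff₀ hL0]; linarith [G.hL2]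
  have hd4 := dl_le_quarter P G lam lv hlv l
  have hdl0 := dl_nonneg P G lam lv hlv hlam l
  -- lower bound on the long coordinates
  have hlow : ∀ u : Fin d → ℝ, (∀ k, k ∉ Lg → u k = 0) →
      (1 / 2) * ∑ k ∈ Lg, lh k * (u k) ^ 2 ≤ ∑ i ∈ W, (∑ k, v i k * u k) ^ 2 := by
    intro u hu
    have h1 := hcl u
    have e1 : ∑ k, lam k / 2 ^ l * (u k) ^ 2 = ∑ k ∈ Lg, lh k * (u k) ^ 2 := by
      symm
      apply Finset.sum_subset (Finset.subset_univ _)
      intro k _ hk; rw [hu k hk]; simp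
    have e2 : ∑ k, (u k) ^ 2 = ∑ k ∈ Lg, (u k) ^ 2 := by
      symm
      apply Finset.sum_subset (Finset.subset_univ _)
      intro k _ hk; rw [hu k hk]; simp
    rw [e1, e2] at h1
    set Q := ∑ k ∈ Lg, lh k * (u k) ^ 2 with hQ
    set N := ∑ k ∈ Lg, (u k) ^ 2 with hN
    have hNQ : P.Lam * N ≤ Q := by
      rw [hN, hQ, Finset.mul_sum]
      exact Finset.sum_le_sum fun k hk => mul_le_mul_of_nonneg_right (hlhL k hk) (sq_nonneg _)
    have hN0 : 0 ≤ N := Finset.sum_nonneg fun _ _ => sq_nonneg _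
    have hQ0 : 0 ≤ Q := le_trans (by positivity) hNQ
    have h2 : P.C1 * N ≤ 1 / 4 * Q := by
      have : P.C1 * N ≤ (P.Lam / 4) * N := mul_le_mul_of_nonneg_right (by linarith [G.hL2]) hN0
      linarith
    have h3 : dl P lam l * Q ≤ 1 / 4 * Q := mul_le_mul_of_nonneg_right hd4 hQ0
    have h4 := (abs_le.1 h1).1
    linarith
  obtain ⟨g, hg0, hgeq, hgb⟩ := P262.exists_tilt W v Lg lh hlhpos hlow c
  -- quantities
  have hsl : sl lam lv l = ∑ k ∈ Lg, 1 / lh k := by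
    unfold sl
    refine Finset.sum_congr rfl fun k _ => ?_
    simp only [hlh]; rw [one_div_div]
  have hsl0 := sl_nonneg P G lam lv hlv l
  have hsld := sl_le P G lam lv hlv l
  have hQg : ∑ k ∈ Lg, lh k * (g k) ^ 2 ≤ 4 * P.b0 ^ 2 * sl lam lv l := by
    have h : ∑ k ∈ Lg, (c k) ^ 2 / lh k ≤ P.b0 ^ 2 * ∑ k ∈ Lg, 1 / lh k := by
      rw [Finset.mul_sum]
      refine Finset.sum_le_sum fun k hk => ?_
      have h1 : (c k) ^ 2 ≤ P.b0 ^ 2 := by
        have := hc k ((hmem k).1 hk)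
        rw [← sq_abs]; exact pow_le_pow_left₀ (abs_nonneg _) this 2
      rw [mul_one_div]
      exact div_le_div_of_nonneg_right h1 (hlhpos k hk).le
    rw [← hsl] at h
    linarith
  have hNg : ∑ k, (g k) ^ 2 ≤ 4 * P.b0 ^ 2 * (sl lam lv l) ^ 2 := by
    have e2 : ∑ k, (g k) ^ 2 = ∑ k ∈ Lg, (g k) ^ 2 := by
      symm
      apply Finset.sum_subset (Finset.subset_univ _)
      intro k _ hk; rw [hg0 k hk]; simp
    rw [e2]
    calc ∑ k ∈ Lg, (g k) ^ 2 ≤ ∑ k ∈ Lg, sl lam lv l * (lh k * (g k) ^ 2) := by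
          refine Finset.sum_le_sum fun k hk => ?_
          have h1 : 1 / lh k ≤ sl lam lv l := by
            rw [hsl]
            exact Finset.single_le_sum (f := fun k => 1 / lh k)
              (fun j hj => one_div_nonneg.2 (hlhpos j hj).le) hk
          have h2 : 1 ≤ sl lam lv l * lh k := by
            rw [div_le_iff₀ (hlhpos k hk)] at h1; linarith
          nlinarith [sq_nonneg (g k)]
      _ = sl lam lv l * ∑ k ∈ Lg, lh k * (g k) ^ 2 := by rw [Finset.mul_sum]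
      _ ≤ sl lam lv l * (4 * P.b0 ^ 2 * sl lam lv l) := mul_le_mul_of_nonneg_left hQg hsl0
      _ = _ := by ring
  have hNg0 : 0 ≤ ∑ k, (g k) ^ 2 := Finset.sum_nonneg fun _ _ => sq_nonneg _
  have hQg' : ∑ k, lam k / 2 ^ l * (g k) ^ 2 ≤ 4 * P.b0 ^ 2 * sl lam lv l := by
    have e1 : ∑ k, lam k / 2 ^ l * (g k) ^ 2 = ∑ k ∈ Lg, lh k * (g k) ^ 2 := by
      symm
      apply Finset.sum_subset (Finset.subset_univ _)
      intro k _ hk; rw [hg0 k hk]; simp
    rw [e1]; exact hQg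
  have hQg0 : 0 ≤ ∑ k, lam k / 2 ^ l * (g k) ^ 2 :=
    Finset.sum_nonneg fun k _ => mul_nonneg (hlh0 k) (sq_nonneg _)
  refine ⟨g, fun k hk => hgeq k ((hmem k).2 hk), ?_, ?_, ?_⟩
  · intro i hi
    have h1 : (∑ j, v i j * g j) ^ 2 ≤ (∑ j, (v i j) ^ 2) * ∑ j, (g j) ^ 2 :=
      Finset.sum_mul_sq_le_sq_mul_sq _ _ _
    have h2 : (∑ j, v i j * g j) ^ 2 ≤ (2 * P.b0 * sl lam lv l) ^ 2 := by
      calc _ ≤ (∑ j, (v i j) ^ 2) * ∑ j, (g j) ^ 2 := h1
        _ ≤ 1 * ∑ j, (g j) ^ 2 := mul_le_mul_of_nonneg_right (hv i hi) hNg0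
        _ ≤ _ := by rw [one_mul]; linarith [hNg]
    exact abs_le_of_sq_le_sq h2 (by positivity)
  · -- short coordinates, bound 1
    intro k hk
    have hkL : k ∉ Lg := by rw [hmem]; omega
    have hd1 : (1:ℝ) ≤ d := by
      have : 0 < d := lt_of_le_of_lt (Nat.zero_le _) k.isLt
      exact_mod_cast this
    have hlhk : lam k / 2 ^ l < P.Lam := by
      by_contra hcon
      push Not at hcon
      have := (hlv l k).2 hcon
      omega
    have hab : ∑ j, lam j / 2 ^ l * (g j * (Pi.single k (1:ℝ) : Fin d → ℝ) j) = 0 := by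
      apply Finset.sum_eq_zero
      intro j _
      by_cases hj : j = k
      · subst hj; rw [hg0 j hkL]; simp
      · simp [hj]
    have h1 := offdiag W v (fun k => lam k / 2 ^ l) (dl P lam l) P.C1 hcl g
      (Pi.single k (1:ℝ)) hab (1 / P.Lam) (by positivity)
    simp only [quad_single v k] at h1
    have e1 : ∑ j, lam j / 2 ^ l * ((Pi.single k (1:ℝ) : Fin d → ℝ) j) ^ 2 = lam k / 2 ^ l := by
      rw [Finset.sum_eq_single k]
      · simp
      · intro b _ hb; simp [hb]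
      · intro h; exact absurd (Finset.mem_univ k) h
    have e2 : ∑ j, ((Pi.single k (1:ℝ) : Fin d → ℝ) j) ^ 2 = 1 := by
      rw [Finset.sum_eq_single k]
      · simp
      · intro b _ hb; simp [hb]
      · intro h; exact absurd (Finset.mem_univ k) h
    rw [e1, e2] at h1
    refine h1.trans ?_
    exact num_aux2 (dl P lam l) (sl lam lv l) P.Lam P.b0 P.C1 _ _ _ d hd1 hL0 hdl0 hC1 hsl0
      (by rwa [le_div_iff₀ hL0] at hsld) hsld hQg' hNg hlhk.le (by linarith)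
      (dl_le P G lam lv hlv l) G.hL3
  · intro k hk
    have h1 : (∑ i ∈ W, (∑ j, v i j * g j) * v i k) ^ 2 ≤
        (∑ i ∈ W, (∑ j, v i j * g j) ^ 2) * ∑ i ∈ W, (v i k) ^ 2 :=
      Finset.sum_mul_sq_le_sq_mul_sq _ _ _
    have hV0 : 0 ≤ ∑ i ∈ W, (v i k) ^ 2 := Finset.sum_nonneg fun _ _ => sq_nonneg _
    have h2 : ∑ i ∈ W, (∑ j, v i j * g j) ^ 2 = ∑ k ∈ Lg, g k * c k := by
      calc ∑ i ∈ W, (∑ j, v i j * g j) ^ 2
          = ∑ i ∈ W, ∑ k, g k * ((∑ j, v i j * g j) * v i k) := by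
            refine Finset.sum_congr rfl fun i _ => ?_
            rw [sq]
            nth_rw 2 [show ∑ j, v i j * g j = ∑ k, g k * v i k from
              Finset.sum_congr rfl fun k _ => mul_comm _ _]
            rw [Finset.mul_sum]
            exact Finset.sum_congr rfl fun k _ => by ring
        _ = ∑ k, g k * ∑ i ∈ W, (∑ j, v i j * g j) * v i k := by
            rw [Finset.sum_comm]
            exact Finset.sum_congr rfl fun k _ => by rw [Finset.mul_sum]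
        _ = ∑ k ∈ Lg, g k * ∑ i ∈ W, (∑ j, v i j * g j) * v i k := by
            symm
            apply Finset.sum_subset (Finset.subset_univ _)
            intro k _ hk; rw [hg0 k hk]; simp
        _ = ∑ k ∈ Lg, g k * c k := Finset.sum_congr rfl fun k hk => by rw [hgeq k hk]
    have h3 : (∑ k ∈ Lg, g k * c k) ^ 2 ≤ 1 := by
      have r1 : (∑ k ∈ Lg, g k * c k) ^ 2 ≤ (∑ k ∈ Lg, (g k) ^ 2) * ∑ k ∈ Lg, (c k) ^ 2 :=
        Finset.sum_mul_sq_le_sq_mul_sq _ _ _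
      have r2 : ∑ k ∈ Lg, (g k) ^ 2 ≤ 4 * P.b0 ^ 2 * (sl lam lv l) ^ 2 :=
        (Finset.sum_le_sum_of_subset_of_nonneg (Finset.subset_univ _)
          (fun _ _ _ => sq_nonneg _)).trans hNg
      have r3 : ∑ k ∈ Lg, (c k) ^ 2 ≤ d * P.b0 ^ 2 := by
        calc ∑ k ∈ Lg, (c k) ^ 2 ≤ ∑ k ∈ Lg, P.b0 ^ 2 := by
              refine Finset.sum_le_sum fun k hk => ?_
              have := hc k ((hmem k).1 hk)
              rw [← sq_abs]; exact pow_le_pow_left₀ (abs_nonneg _) this 2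
          _ = (Lg.card : ℝ) * P.b0 ^ 2 := by rw [Finset.sum_const, nsmul_eq_mul]
          _ ≤ d * P.b0 ^ 2 := by
              apply mul_le_mul_of_nonneg_right _ (by positivity)
              have := Finset.card_le_univ Lg
              simp only [Fintype.card_fin] at this
              exact_mod_cast this
      have r4 : (∑ k ∈ Lg, (g k) ^ 2) * ∑ k ∈ Lg, (c k) ^ 2 ≤
          (4 * P.b0 ^ 2 * (sl lam lv l) ^ 2) * (d * P.b0 ^ 2) :=
        mul_le_mul r2 r3 (Finset.sum_nonneg fun _ _ => sq_nonneg _) (by positivity)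
      refine r1.trans (r4.trans ?_)
      exact num_aux1 _ P.Lam _ _ hsl0 (by rwa [le_div_iff₀ hL0] at hsld) G.hL4
    have h4 : ∑ k ∈ Lg, g k * c k ≤ 1 := by
      by_contra hcon
      push Not at hcon
      nlinarith
    rw [h2] at h1
    calc _ ≤ _ := h1
      _ ≤ 1 * ∑ i ∈ W, (v i k) ^ 2 := mul_le_mul_of_nonneg_right h4 hV0
      _ = _ := one_mul _

end P262L
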