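import Vale.Agent.P262L.StepC

/-! P262: a half of a node satisfies the invariants of the next level. -/

set_option linter.unusedSectionVars false

namespace P262L

open Finset
open scoped Classical

variable {d : ℕ} {ι : Type}

/-- next age -/
noncomputable def nage (P : Par d) (v : ι → Fin d → ℝ) (W : Finset ι) (age : ι → ℕ) (i : ι) : ℕ :=
  if age i = 0 then (if Hv (20 * P.m) v W i then 1 else 0) else min (age i + 1) (P.K + 1)

lemma quad_le (v : ι → Fin d → ℝ) (i : ι) (hv : ∑ k, (v i k) ^ 2 ≤ 1) (u : Fin d → ℝ) :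
    (∑ k, v i k * u k) ^ 2 ≤ ∑ k, (u k) ^ 2 := by
  have h1 : (∑ j, v i j * u j) ^ 2 ≤ (∑ j, (v i j) ^ 2) * ∑ j, (u j) ^ 2 :=
    Finset.sum_mul_sq_le_sq_mul_sq _ _ _
  have h0 : 0 ≤ ∑ k, (u k) ^ 2 := Finset.sum_nonneg fun _ _ => sq_nonneg _
  calc _ ≤ _ := h1
    _ ≤ 1 * ∑ j, (u j) ^ 2 := mul_le_mul_of_nonneg_right hv h0
    _ = _ := one_mul _

lemma sum_quad_le (A : Finset ι) (v : ι → Fin d → ℝ) (hv : ∀ i, ∑ k, (v i k) ^ 2 ≤ 1)
    (n : ℕ) (hA : A.card ≤ n) (u : Fin d → ℝ) :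
    ∑ i ∈ A, (∑ k, v i k * u k) ^ 2 ≤ n * ∑ k, (u k) ^ 2 := by
  have hN0 : 0 ≤ ∑ k, (u k) ^ 2 := Finset.sum_nonneg fun _ _ => sq_nonneg _
  calc _ ≤ ∑ i ∈ A, ∑ k, (u k) ^ 2 := Finset.sum_le_sum fun i _ => quad_le v i (hv i) u
    _ = (A.card : ℝ) * ∑ k, (u k) ^ 2 := by rw [Finset.sum_const, nsmul_eq_mul]
    _ ≤ _ := mul_le_mul_of_nonneg_right (by exact_mod_cast hA) hN0

lemma sum_filter_one (A : Finset ι) (χ : ι → ℝ) (hχ : ∀ i ∈ A, χ i = 0 ∨ χ i = 1) (φ : ι → ℝ) :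
    ∑ i ∈ A.filter (fun i => χ i = 1), φ i = ∑ i ∈ A, χ i * φ i := by
  rw [Finset.sum_filter]
  refine Finset.sum_congr rfl fun i hi => ?_
  rcases hχ i hi with h | h
  · rw [h]; simp
  · rw [h]; simp

lemma num_close (A B Hs Fs Q N D D' ε CQ h m : ℝ) (hA : 0 ≤ A) (hH0 : 0 ≤ Hs) (hF0 : 0 ≤ Fs)
    (hQ : 0 ≤ Q) (hN : 0 ≤ N) (hD0 : 0 ≤ D) (hε : 0 ≤ ε)
    (hHs : Hs ≤ h * N) (hFs : Fs ≤ m * N) (hh : 0 ≤ h) (hm : 0 ≤ m) (hCQ : CQ = 2 * h + 4 * m)
    (hD4 : D ≤ 1 / 4) (heps : ε ≤ 1 / 32) (hds : D + 4 * ε ≤ D')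
    (h1 : |B - 1 / 2 * A| ≤ ε * A + Fs)
    (h2 : |Hs + A - 2 * Q| ≤ D * (2 * Q) + CQ * N) :
    |B - Q| ≤ D' * Q + CQ * N := by
  have hCN : CQ * N = 2 * (h * N) + 4 * (m * N) := by rw [hCQ]; ring
  have hhN : 0 ≤ h * N := mul_nonneg hh hN
  have hmN : 0 ≤ m * N := mul_nonneg hm hN
  have hCN0 : 0 ≤ CQ * N := by rw [hCN]; positivity
  have h3 : D * (2 * Q) ≤ 1 / 4 * (2 * Q) := mul_le_mul_of_nonneg_right hD4 (by positivity)
  have hAup : A ≤ 3 * Q + CQ * N := by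
    have := (abs_le.1 h2).2
    linarith
  have hεA : ε * A ≤ 4 * ε * Q + 1 / 16 * (CQ * N) := by
    have t1 : ε * A ≤ ε * (3 * Q + CQ * N) := mul_le_mul_of_nonneg_left hAup hε
    have t2 : ε * (CQ * N) ≤ 1 / 32 * (CQ * N) := mul_le_mul_of_nonneg_right heps hCN0
    have t4 : 0 ≤ ε * Q := by positivity
    have t5 : ε * (3 * Q + CQ * N) = 3 * (ε * Q) + ε * (CQ * N) := by ring
    have t6 : 4 * ε * Q = 4 * (ε * Q) := by ring
    linarith
  have hdQ : (D + 4 * ε) * Q ≤ D' * Q := mul_le_mul_of_nonneg_right hds hQ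
  have e1 : (D + 4 * ε) * Q = D * Q + 4 * ε * Q := by ring
  have e2 : D * (2 * Q) = 2 * (D * Q) := by ring
  have a1 := abs_le.1 h1
  have a2 := abs_le.1 h2
  rw [abs_le]
  constructor
  · linarith [a1.1, a2.1]
  · linarith [a1.2, a2.2]

/-- the data of one side of a step -/
structure SideD (P : Par d) (lam : Fin d → ℝ) (lv : Fin d → ℕ) (v : ι → Fin d → ℝ)
    (l : ℕ) (S : Finset ι) (age : ι → ℕ) (W W' Fr T0 : Finset ι) (χ : ι → ℝ) : Prop where
  hW : W = S.filter (fun i => age i = 0)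
  hW' : W' = W.filter (fun i => ¬ Hv (20 * P.m) v W i)
  hT0 : T0 ⊆ S
  hWT : W' ⊆ T0
  hFr : Fr ⊆ W'
  hFrc : Fr.card ≤ P.m
  hχ : ∀ i ∈ T0, χ i = 0 ∨ χ i = 1
  hq : ∀ u : Fin d → ℝ, |∑ i ∈ W', χ i * (∑ k, v i k * u k) ^ 2
        - (1 / 2) * ∑ i ∈ W', (∑ k, v i k * u k) ^ 2| ≤
        2 * P.b0 * sl lam lv l * ∑ i ∈ W', (∑ k, v i k * u k) ^ 2
          + ∑ i ∈ Fr, (∑ k, v i k * u k) ^ 2
  hcls : ∀ j, 1 ≤ j → j ≤ P.K →
      |∑ i ∈ T0.filter (fun i => nage P v W age i = j), χ i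
        - (1 / 2) * ((T0.filter (fun i => nage P v W age i = j)).card : ℝ)| ≤ 1 / 2

section
variable (P : Par d) (lam : Fin d → ℝ) (lv : Fin d → ℕ)
  (v : ι → Fin d → ℝ) (l : ℕ) (S : Finset ι) (age : ι → ℕ)
  (W W' Fr T0 : Finset ι) (χ : ι → ℝ) (D : SideD P lam lv v l S age W W' Fr T0 χ)

lemma hv_card : (W.filter (fun i => Hv (20 * P.m) v W i)).card ≤ P.h := by
  have := heavy_count (20 * P.m) v W
  unfold Par.h
  convert this using 2

include D

lemma side_sub : W' ⊆ T0 := D.hWT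

lemma side_light : (T0.filter (fun i => χ i = 1)).filter (fun i => nage P v W age i = 0) =
      W'.filter (fun i => χ i = 1) := by
  ext i
  simp only [Finset.mem_filter]
  constructor
  · rintro ⟨⟨h1, h2⟩, h3⟩
    refine ⟨?_, h2⟩
    unfold nage at h3
    split_ifs at h3 with h4 h5
    · rw [D.hW', Finset.mem_filter]
      refine ⟨?_, h5⟩
      rw [D.hW, Finset.mem_filter]; exact ⟨D.hT0 h1, h4⟩
    · omega
  · rintro ⟨h1, h2⟩
    refine ⟨⟨side_sub P lam lv v l S age W W' Fr T0 χ D h1, h2⟩, ?_⟩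
    rw [D.hW', Finset.mem_filter] at h1
    have h4 : age i = 0 := by
      have := h1.1
      rw [D.hW, Finset.mem_filter] at this; exact this.2
    unfold nage
    rw [if_pos h4, if_neg h1.2]

lemma side_sum (φ : ι → ℝ) : ∑ i ∈ W'.filter (fun i => χ i = 1), φ i = ∑ i ∈ W', χ i * φ i :=
  sum_filter_one W' χ (fun i hi => D.hχ i (side_sub P lam lv v l S age W W' Fr T0 χ D hi)) φ

lemma side_close (G : P.Good) (hlv : ∀ l k, l < lv k ↔ P.Lam ≤ lam k / 2 ^ l)
    (hlam : ∀ k, 0 ≤ lam k) (hv : ∀ i, ∑ k, (v i k) ^ 2 ≤ 1)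
    (I : InvS P v lam lv l S age) (u : Fin d → ℝ) :
    |∑ i ∈ W'.filter (fun i => χ i = 1), (∑ k, v i k * u k) ^ 2
          - ∑ k, lam k / 2 ^ (l + 1) * (u k) ^ 2| ≤
        dl P lam (l + 1) * ∑ k, lam k / 2 ^ (l + 1) * (u k) ^ 2 + P.CQ * ∑ k, (u k) ^ 2 := by
  rw [side_sum P lam lv v l S age W W' Fr T0 χ D]
  have h1 := D.hq u
  have h2 := I.close u
  rw [← D.hW] at h2
  have hsplit : ∑ i ∈ W, (∑ k, v i k * u k) ^ 2 =
      ∑ i ∈ W.filter (fun i => Hv (20 * P.m) v W i), (∑ k, v i k * u k) ^ 2 +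
      ∑ i ∈ W', (∑ k, v i k * u k) ^ 2 := by
    rw [D.hW']; exact (Finset.sum_filter_add_sum_filter_not _ _ _).symm
  have hQ2 : ∑ k, lam k / 2 ^ l * (u k) ^ 2 = 2 * ∑ k, lam k / 2 ^ (l + 1) * (u k) ^ 2 := by
    rw [Finset.mul_sum]
    refine Finset.sum_congr rfl fun k _ => ?_
    have h2p : (2:ℝ) ^ l ≠ 0 := by positivity
    have e : lam k / 2 ^ (l + 1) = (lam k / 2 ^ l) / 2 := by
      rw [pow_succ, div_div]
    rw [e]; ring
  rw [hQ2, hsplit] at h2
  have hds := dl_step P G lam lv hlv hlam l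
  have hb0 := G.b0_ge
  have hsl0 := sl_nonneg P G lam lv hlv l
  refine num_close _ _ _ _ _ _ _ _ (2 * P.b0 * sl lam lv l) P.CQ P.h P.m
    (Finset.sum_nonneg fun _ _ => sq_nonneg _)
    (Finset.sum_nonneg fun _ _ => sq_nonneg _) (Finset.sum_nonneg fun _ _ => sq_nonneg _)
    (Finset.sum_nonneg fun k _ =>
      mul_nonneg (div_nonneg (hlam k) (by positivity)) (sq_nonneg _))
    (Finset.sum_nonneg fun _ _ => sq_nonneg _)
    (dl_nonneg P G lam lv hlv hlam l) (by positivity)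
    (sum_quad_le _ v hv _ (hv_card P v W) u) (sum_quad_le _ v hv _ D.hFrc u)
    (Nat.cast_nonneg _) (Nat.cast_nonneg _) rfl (dl_le_quarter P G lam lv hlv l)
    (eps_le P G lam lv hlv l) (by linarith) h1 h2

lemma side_age : ∀ i ∈ T0.filter (fun i => χ i = 1), nage P v W age i ≤ P.K + 1 := by
  intro i _
  unfold nage
  split_ifs <;> omega

lemma cls_card (G : P.Good) (I : InvS P v lam lv l S age) (j : ℕ) (hj1 : 1 ≤ j) (hj2 : j ≤ P.K) :
    ((T0.filter (fun i => nage P v W age i = j)).card : ℝ) ≤ P.h / 2 ^ (j - 1) + 1 := by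
  have hK1 := G.hK1
  by_cases hj : j = 1
  · subst hj
    have : T0.filter (fun i => nage P v W age i = 1) ⊆
        W.filter (fun i => Hv (20 * P.m) v W i) := by
      intro i hi
      rw [Finset.mem_filter] at hi
      have h3 := hi.2
      unfold nage at h3
      split_ifs at h3 with h4 h5
      · have hiW : i ∈ W := by rw [D.hW, Finset.mem_filter]; exact ⟨D.hT0 hi.1, h4⟩
        rw [Finset.mem_filter]
        exact ⟨hiW, h5⟩
      · omega
    have h5 : ((T0.filter (fun i => nage P v W age i = 1)).card : ℝ) ≤ P.h := by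
      exact_mod_cast (Finset.card_le_card this).trans (hv_card P v W)
    simp only [Nat.sub_self, pow_zero, div_one]
    linarith
  · have : T0.filter (fun i => nage P v W age i = j) ⊆
        S.filter (fun i => age i = j - 1) := by
      intro i hi
      rw [Finset.mem_filter] at hi
      have h3 := hi.2
      unfold nage at h3
      rw [Finset.mem_filter]
      split_ifs at h3 with h4 h5 <;> first | omega | exact ⟨D.hT0 hi.1, by omega⟩
    have h5 : ((T0.filter (fun i => nage P v W age i = j)).card : ℝ) ≤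
        ((S.filter (fun i => age i = j - 1)).card : ℝ) := by
      exact_mod_cast Finset.card_le_card this
    exact h5.trans (I.cls (j - 1) (by omega) (by omega))

lemma side_cls (G : P.Good) (I : InvS P v lam lv l S age) (j : ℕ) (hj1 : 1 ≤ j) (hj2 : j ≤ P.K) :
    (((T0.filter (fun i => χ i = 1)).filter (fun i => nage P v W age i = j)).card : ℝ) ≤
      (P.h : ℝ) / 2 ^ j + 1 := by
  have e1 : (((T0.filter (fun i => χ i = 1)).filter (fun i => nage P v W age i = j)).card : ℝ) =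
      ∑ i ∈ T0.filter (fun i => nage P v W age i = j), χ i := by
    have : (T0.filter (fun i => χ i = 1)).filter (fun i => nage P v W age i = j) =
        (T0.filter (fun i => nage P v W age i = j)).filter (fun i => χ i = 1) := by
      ext i; simp only [Finset.mem_filter]; tauto
    rw [this, Finset.card_eq_sum_ones]
    push_cast
    rw [sum_filter_one _ χ (fun i hi => D.hχ i (Finset.mem_filter.1 hi).1) (fun _ => 1)]
    simp
  rw [e1]
  have h1 := (abs_le.1 (D.hcls j hj1 hj2)).2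
  have h2 := cls_card P lam lv v l S age W W' Fr T0 χ D G I j hj1 hj2
  have h3 : (P.h : ℝ) / 2 ^ j = (1 / 2) * (P.h / 2 ^ (j - 1)) := by
    obtain ⟨n, rfl⟩ : ∃ n, j = n + 1 := ⟨j - 1, by omega⟩
    simp only [Nat.add_sub_cancel]
    rw [pow_succ, ← div_div]; ring
  rw [h3]
  linarith

lemma side_fr_sum (k : Fin d) : ∑ i ∈ Fr, (v i k) ^ 2 ≤ 1 / 20 * ∑ i ∈ W, (v i k) ^ 2 := by
  set V := ∑ i ∈ W, (v i k) ^ 2 with hV
  have hV0 : 0 ≤ V := Finset.sum_nonneg fun _ _ => sq_nonneg _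
  have hm1 : (0:ℝ) < P.m := by
    have : 0 < P.m := by unfold Par.m; positivity
    exact_mod_cast this
  have h3 : ∀ i ∈ Fr, (v i k) ^ 2 ≤ V / (20 * P.m) := by
    intro i hi
    have h4 := D.hFr hi
    rw [D.hW', Finset.mem_filter] at h4
    have h5 := h4.2
    unfold Hv at h5
    push Not at h5
    have h6 := h5.1 k
    push_cast at h6
    rw [le_div_iff₀ (by positivity)]
    linarith
  calc ∑ i ∈ Fr, (v i k) ^ 2 ≤ ∑ i ∈ Fr, V / (20 * P.m) := Finset.sum_le_sum h3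
    _ = (Fr.card : ℝ) * (V / (20 * P.m)) := by rw [Finset.sum_const, nsmul_eq_mul]
    _ ≤ (P.m : ℝ) * (V / (20 * P.m)) := by
        apply mul_le_mul_of_nonneg_right _ (by positivity)
        exact_mod_cast D.hFrc
    _ = 1 / 20 * V := by field_simp

lemma side_short_old (G : P.Good) (hlv : ∀ l k, l < lv k ↔ P.Lam ≤ lam k / 2 ^ l)
    (I : InvS P v lam lv l S age) (k : Fin d) (hge : lv k ≤ l) :
    ∑ i ∈ W'.filter (fun i => χ i = 1), (v i k) ^ 2 ≤
      2 * P.Lam * (3 / 5 : ℝ) ^ (l + 1 - lv k) := by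
  have h1 := D.hq (Pi.single k 1)
  simp only [quad_single v k] at h1
  rw [side_sum P lam lv v l S age W W' Fr T0 χ D]
  have h2 := I.short k hge
  rw [← D.hW] at h2
  have hV0 : 0 ≤ ∑ i ∈ W, (v i k) ^ 2 := Finset.sum_nonneg fun _ _ => sq_nonneg _
  have hVW' : ∑ i ∈ W', (v i k) ^ 2 ≤ ∑ i ∈ W, (v i k) ^ 2 := by
    rw [D.hW']
    exact Finset.sum_le_sum_of_subset_of_nonneg (Finset.filter_subset _ _)
      (fun _ _ _ => sq_nonneg _)
  have hVW'0 : 0 ≤ ∑ i ∈ W', (v i k) ^ 2 := Finset.sum_nonneg fun _ _ => sq_nonneg _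
  have hFV := side_fr_sum P lam lv v l S age W W' Fr T0 χ D k
  have h4 := (abs_le.1 h1).2
  have h5 : 2 * P.b0 * sl lam lv l * ∑ i ∈ W', (v i k) ^ 2 ≤ 1 / 32 * ∑ i ∈ W', (v i k) ^ 2 :=
    mul_le_mul_of_nonneg_right (eps_le P G lam lv hlv l) hVW'0
  have h6 : ∑ i ∈ W', χ i * (v i k) ^ 2 ≤ 3 / 5 * ∑ i ∈ W, (v i k) ^ 2 := by linarith
  have h7 : l + 1 - lv k = (l - lv k) + 1 := by omega
  rw [h7, pow_succ]
  linarith

lemma side_short_new (G : P.Good) (hlv : ∀ l k, l < lv k ↔ P.Lam ≤ lam k / 2 ^ l)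
    (hlam : ∀ k, 0 ≤ lam k) (hv : ∀ i, ∑ k, (v i k) ^ 2 ≤ 1)
    (I : InvS P v lam lv l S age) (k : Fin d) (hkeq : lv k = l + 1) :
    ∑ i ∈ W'.filter (fun i => χ i = 1), (v i k) ^ 2 ≤
      2 * P.Lam * (3 / 5 : ℝ) ^ (l + 1 - lv k) := by
  have h1 := side_close P lam lv v l S age W W' Fr T0 χ D G hlv hlam hv I (Pi.single k 1)
  simp only [quad_single v k] at h1
  have e1 : ∑ j, lam j / 2 ^ (l + 1) * ((Pi.single k (1:ℝ) : Fin d → ℝ) j) ^ 2 =
      lam k / 2 ^ (l + 1) := by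
    rw [Finset.sum_eq_single k]
    · simp
    · intro b _ hb; simp [hb]
    · intro h; exact absurd (Finset.mem_univ k) h
  have e2 : ∑ j, ((Pi.single k (1:ℝ) : Fin d → ℝ) j) ^ 2 = 1 := by
    rw [Finset.sum_eq_single k]
    · simp
    · intro b _ hb; simp [hb]
    · intro h; exact absurd (Finset.mem_univ k) h
  rw [e1, e2] at h1
  have hlt2 : lam k / 2 ^ (l + 1) < P.Lam := by
    by_contra hcon
    push Not at hcon
    have := (hlv (l + 1) k).2 hcon
    omega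
  have hlk0 : 0 ≤ lam k / 2 ^ (l + 1) := div_nonneg (hlam k) (by positivity)
  have hdl4' := dl_le_quarter P G lam lv hlv (l + 1)
  have h3 : dl P lam (l + 1) * (lam k / 2 ^ (l + 1)) ≤ 1 / 4 * (lam k / 2 ^ (l + 1)) :=
    mul_le_mul_of_nonneg_right hdl4' hlk0
  have h4 : P.CQ ≤ P.Lam / 4 := by
    have := G.hL2
    unfold Par.C1 at this
    have hh0 : (0:ℝ) ≤ P.h := Nat.cast_nonneg _
    linarith
  rw [hkeq]
  simp only [Nat.sub_self, pow_zero, mul_one]
  have h5 := (abs_le.1 h1).2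
  linarith

lemma side_heavy (I : InvS P v lam lv l S age) :
    ∀ i ∈ T0.filter (fun i => χ i = 1), 1 ≤ nage P v W age i → nage P v W age i ≤ P.K → ∀ k,
      lv k + nage P v W age i ≤ l + 1 →
      (v i k) ^ 2 ≤ 2 * P.Lam * (3 / 5 : ℝ) ^ (l + 1 - nage P v W age i - lv k) := by
  intro i hi h1 h1' k hk
  rw [Finset.mem_filter] at hi
  have hiS := D.hT0 hi.1
  unfold nage at h1 h1' hk ⊢
  split_ifs at h1 h1' hk ⊢ with h4 h5
  · have hiW : i ∈ W := by rw [D.hW, Finset.mem_filter]; exact ⟨hiS, h4⟩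
    have h6 := I.short k (by omega)
    rw [← D.hW] at h6
    have h7 : (v i k) ^ 2 ≤ ∑ j ∈ W, (v j k) ^ 2 :=
      Finset.single_le_sum (f := fun j => (v j k) ^ 2) (fun _ _ => sq_nonneg _) hiW
    have h8 : l + 1 - 1 - lv k = l - lv k := by omega
    rw [h8]; linarith
  · omega
  · have hm : min (age i + 1) (P.K + 1) = age i + 1 := by omega
    rw [hm] at hk ⊢
    have h6 := I.heavy i hiS (by omega) (by omega) k (by omega)
    have h8 : l + 1 - (age i + 1) - lv k = l - age i - lv k := by omega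
    rw [h8]; exact h6

lemma side (G : P.Good) (hlv : ∀ l k, l < lv k ↔ P.Lam ≤ lam k / 2 ^ l)
    (hlam : ∀ k, 0 ≤ lam k) (hv : ∀ i, ∑ k, (v i k) ^ 2 ≤ 1)
    (I : InvS P v lam lv l S age)
    (hpool : ((T0.filter (fun i => χ i = 1)).filter
      (fun i => nage P v W age i = P.K + 1)).card ≤ 2) :
    InvS P v lam lv (l + 1) (T0.filter (fun i => χ i = 1)) (nage P v W age) where
  age_le := side_age P lam lv v l S age W W' Fr T0 χ D
  cls := side_cls P lam lv v l S age W W' Fr T0 χ D G I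
  pool := hpool
  close := by
    intro u
    rw [side_light P lam lv v l S age W W' Fr T0 χ D]
    exact side_close P lam lv v l S age W W' Fr T0 χ D G hlv hlam hv I u
  short := by
    intro k hk
    rw [side_light P lam lv v l S age W W' Fr T0 χ D]
    rcases Nat.lt_or_ge l (lv k) with hlt | hge
    · exact side_short_new P lam lv v l S age W W' Fr T0 χ D G hlv hlam hv I k (by omega)
    · exact side_short_old P lam lv v l S age W W' Fr T0 χ D G hlv I k hge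
  heavy := side_heavy P lam lv v l S age W W' Fr T0 χ D I

end

end P262L
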