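import Vale.Agent.P262L.StepD
import Vale.Agent.P262L.FlagRound
import Vale.Agent.P262L.Pairing

/-! P262, bound `√(d log d)`: tools for one node. -/

set_option linter.unusedSectionVars false

namespace P262L

open Finset
open scoped Classical

variable {d : ℕ} {ι : Type}

lemma vertex_data (A : Finset ι) (v : ι → Fin d → ℝ) (x : ι → ℝ)
    (hx : ∀ i ∈ A, 0 ≤ x i ∧ x i ≤ 1) :
    ∃ z : ι → ℝ, (∀ i ∈ A, 0 ≤ z i ∧ z i ≤ 1) ∧
      (A.filter (fun i => z i ≠ 0 ∧ z i ≠ 1)).card ≤ d ^ 2 + d + 1 ∧
      (∀ k, ∑ i ∈ A, z i * v i k = ∑ i ∈ A, x i * v i k) ∧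
      (∀ u : Fin d → ℝ, ∑ i ∈ A, z i * (∑ k, v i k * u k) ^ 2 =
        ∑ i ∈ A, x i * (∑ k, v i k * u k) ^ 2) ∧
      ∑ i ∈ A, z i = ∑ i ∈ A, x i := by
  obtain ⟨z, hz1, hz2, hz3⟩ := P262.exists_vertex (C := Fin d ⊕ (Fin d × Fin d) ⊕ Unit) A x hx
    (fun i => Sum.elim (fun k => v i k) (Sum.elim (fun p => v i p.1 * v i p.2) (fun _ => 1)))
  refine ⟨z, hz1, ?_, ?_, ?_, ?_⟩
  · refine hz3.trans (le_of_eq ?_)
    simp [Fintype.card_sum]
    ring
  · intro k
    have := hz2 (Sum.inl k)
    simpa using this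
  · intro u
    have key : ∀ w : ι → ℝ, ∑ i ∈ A, w i * (∑ k, v i k * u k) ^ 2 =
        ∑ p : Fin d × Fin d, (u p.1 * u p.2) * ∑ i ∈ A, w i * (v i p.1 * v i p.2) := by
      intro w
      calc ∑ i ∈ A, w i * (∑ k, v i k * u k) ^ 2
          = ∑ i ∈ A, ∑ p : Fin d × Fin d, (u p.1 * u p.2) * (w i * (v i p.1 * v i p.2)) := by
            refine Finset.sum_congr rfl fun i _ => ?_
            rw [sq, Finset.sum_mul_sum, ← Finset.univ_product_univ, Finset.sum_product,
              Finset.mul_sum]
            refine Finset.sum_congr rfl fun j _ => ?_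
            rw [Finset.mul_sum]
            exact Finset.sum_congr rfl fun k _ => by ring
        _ = _ := by
            rw [Finset.sum_comm]
            exact Finset.sum_congr rfl fun p _ => by rw [Finset.mul_sum]
    rw [key z, key x]
    refine Finset.sum_congr rfl fun p _ => ?_
    have := hz2 (Sum.inr (Sum.inl p))
    simp only [Sum.elim_inr, Sum.elim_inl] at this
    rw [this]
  · have := hz2 (Sum.inr (Sum.inr ()))
    simpa using this

lemma half_data (A Fr : Finset ι) (hFr : Fr ⊆ A) (x z χ φ : ι → ℝ) (ε : ℝ)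
    (hφ : ∀ i ∈ A, 0 ≤ φ i) (hx : ∀ i ∈ A, |x i - 1 / 2| ≤ ε)
    (hz : ∀ i ∈ A, 0 ≤ z i ∧ z i ≤ 1) (hχ : ∀ i ∈ Fr, χ i = 0 ∨ χ i = 1)
    (hχz : ∀ i ∈ A, i ∉ Fr → χ i = z i)
    (he : ∑ i ∈ A, z i * φ i = ∑ i ∈ A, x i * φ i) :
    |∑ i ∈ A, χ i * φ i - (1 / 2) * ∑ i ∈ A, φ i| ≤ ε * ∑ i ∈ A, φ i + ∑ i ∈ Fr, φ i := by
  have h1 : ∑ i ∈ A, χ i * φ i = ∑ i ∈ A, z i * φ i + ∑ i ∈ Fr, (χ i - z i) * φ i := by
    have h0 : ∑ i ∈ Fr, (χ i - z i) * φ i = ∑ i ∈ A, (χ i - z i) * φ i := by
      apply Finset.sum_subset hFr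
      intro i hi hi2
      rw [hχz i hi hi2]; ring
    rw [h0, ← Finset.sum_add_distrib]
    exact Finset.sum_congr rfl fun i _ => by ring
  have h2 : ∑ i ∈ A, x i * φ i - (1 / 2) * ∑ i ∈ A, φ i = ∑ i ∈ A, (x i - 1 / 2) * φ i := by
    rw [Finset.mul_sum, ← Finset.sum_sub_distrib]
    exact Finset.sum_congr rfl fun i _ => by ring
  have h3 : |∑ i ∈ A, (x i - 1 / 2) * φ i| ≤ ε * ∑ i ∈ A, φ i := by
    rw [Finset.mul_sum]
    refine (Finset.abs_sum_le_sum_abs _ _).trans (Finset.sum_le_sum fun i hi => ?_)
    rw [abs_mul, abs_of_nonneg (hφ i hi)]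
    exact mul_le_mul_of_nonneg_right (hx i hi) (hφ i hi)
  have h4 : |∑ i ∈ Fr, (χ i - z i) * φ i| ≤ ∑ i ∈ Fr, φ i := by
    refine (Finset.abs_sum_le_sum_abs _ _).trans (Finset.sum_le_sum fun i hi => ?_)
    rw [abs_mul, abs_of_nonneg (hφ i (hFr hi))]
    have h5 : |χ i - z i| ≤ 1 := by
      have := hz i (hFr hi)
      rw [abs_le]
      rcases hχ i hi with h | h <;> rw [h] <;> constructor <;> linarith
    calc _ ≤ 1 * φ i := mul_le_mul_of_nonneg_right h5 (hφ i (hFr hi))
      _ = φ i := one_mul _
  have h6 : ∑ i ∈ A, χ i * φ i - (1 / 2) * ∑ i ∈ A, φ i =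
      ∑ i ∈ A, (x i - 1 / 2) * φ i + ∑ i ∈ Fr, (χ i - z i) * φ i := by
    rw [h1, he, ← h2]; ring
  rw [h6]
  exact (abs_add_le _ _).trans (add_le_add h3 h4)

/-- number of old heavy vectors -/
lemma old_card (P : Par d) (v : ι → Fin d → ℝ) (lam : Fin d → ℝ) (lv : Fin d → ℕ)
    (l : ℕ) (S : Finset ι) (age : ι → ℕ) (I : InvS P v lam lv l S age) :
    ((S.filter (fun i => 1 ≤ age i ∧ age i ≤ P.K)).card : ℝ) ≤ P.h + P.K := by
  have key : ∀ n : ℕ, n ≤ P.K → ((S.filter (fun i => 1 ≤ age i ∧ age i ≤ n)).card : ℝ) ≤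
      P.h * (1 - 1 / 2 ^ n) + n := by
    intro n
    induction n with
    | zero =>
      intro _
      have : S.filter (fun i => 1 ≤ age i ∧ age i ≤ 0) = ∅ := by
        apply Finset.filter_eq_empty_iff.2
        intro i _; omega
      rw [this]; simp
    | succ n ih =>
      intro hn
      have ih' := ih (by omega)
      have h1 : S.filter (fun i => 1 ≤ age i ∧ age i ≤ n + 1) ⊆
          S.filter (fun i => 1 ≤ age i ∧ age i ≤ n) ∪ S.filter (fun i => age i = n + 1) := by
        intro i hi
        rw [Finset.mem_filter] at hi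
        rw [Finset.mem_union, Finset.mem_filter, Finset.mem_filter]
        by_cases h : age i = n + 1
        · right; exact ⟨hi.1, h⟩
        · left; exact ⟨hi.1, hi.2.1, by omega⟩
      have h2 : ((S.filter (fun i => 1 ≤ age i ∧ age i ≤ n + 1)).card : ℝ) ≤
          ((S.filter (fun i => 1 ≤ age i ∧ age i ≤ n)).card : ℝ) +
            ((S.filter (fun i => age i = n + 1)).card : ℝ) := by
        exact_mod_cast (Finset.card_le_card h1).trans (Finset.card_union_le _ _)
      have h3 := I.cls (n + 1) (by omega) (by omega)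
      have h4 : (P.h : ℝ) * (1 - 1 / 2 ^ (n + 1)) = P.h * (1 - 1 / 2 ^ n) + P.h / 2 ^ (n + 1) := by
        rw [pow_succ]; field_simp; ring
      rw [h4]
      push_cast
      linarith
  have h1 := key P.K le_rfl
  have h2 : (P.h : ℝ) * (1 - 1 / 2 ^ P.K) ≤ P.h := by
    have h3 : (0:ℝ) ≤ 1 / 2 ^ P.K := by positivity
    have h4 : (0:ℝ) ≤ P.h := Nat.cast_nonneg _
    nlinarith
  linarith

lemma top_card (P : Par d) (G : P.Good) (v : ι → Fin d → ℝ) (lam : Fin d → ℝ) (lv : Fin d → ℕ)
    (l : ℕ) (S : Finset ι) (age : ι → ℕ) (I : InvS P v lam lv l S age) :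
    (S.filter (fun i => age i = P.K)).card ≤ 1 := by
  have h1 := I.cls P.K G.hK1 le_rfl
  have h2 : (P.h : ℝ) / 2 ^ P.K < 1 := by
    rw [div_lt_one (by positivity)]
    exact_mod_cast G.hK
  have h3 : ((S.filter (fun i => age i = P.K)).card : ℝ) < 2 := by linarith
  have h4 : (S.filter (fun i => age i = P.K)).card < 2 := by exact_mod_cast h3
  omega

lemma item_small (P : Par d) (G : P.Good) (v : ι → Fin d → ℝ) (lam : Fin d → ℝ) (lv : Fin d → ℕ)
    (l : ℕ) (S : Finset ι) (age : ι → ℕ) (I : InvS P v lam lv l S age) (k : Fin d)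
    (hk : lv k + (P.K + 1) ≤ l) (i : ι) (hi : i ∈ S) (hiK : age i ≤ P.K) :
    (v i k) ^ 2 ≤ 2 * P.Lam * (3 / 5 : ℝ) ^ (l - lv k - (P.K + 1)) := by
  have hL := G.hL0
  have hmono : ∀ a b : ℕ, b ≤ a → 2 * P.Lam * (3 / 5 : ℝ) ^ a ≤ 2 * P.Lam * (3 / 5 : ℝ) ^ b := by
    intro a b hab
    apply mul_le_mul_of_nonneg_left _ (by positivity)
    exact pow_le_pow_of_le_one (by norm_num) (by norm_num) hab
  by_cases h0 : age i = 0
  · have h1 := I.short k (by omega)
    have h2 : (v i k) ^ 2 ≤ ∑ j ∈ S.filter (fun i => age i = 0), (v j k) ^ 2 :=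
      Finset.single_le_sum (f := fun j => (v j k) ^ 2) (fun _ _ => sq_nonneg _)
        (Finset.mem_filter.2 ⟨hi, h0⟩)
    exact h2.trans (h1.trans (hmono _ _ (by omega)))
  · have h1 := I.heavy i hi (by omega) hiK k (by omega)
    exact h1.trans (hmono _ _ (by omega))

/-- the at most two old heavy vectors of a node -/
lemma pool_step (Pl : Finset ι) (hPl : Pl.card ≤ 2) (v : ι → Fin d → ℝ)
    (hv : ∀ i, ∑ k, (v i k) ^ 2 ≤ 1) (Sh : Finset (Fin d)) (s : Fin d → ℝ) :
    ∃ (RP : Finset ι) (χ : ι → ℝ) (cp : ℝ), RP ⊆ Pl ∧ RP.card ≤ 1 ∧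
      (∀ i ∈ Pl \ RP, χ i = 0 ∨ χ i = 1) ∧
      (∀ σ : ℝ, (σ = 1 / 2 ∨ σ = -1 / 2) →
        ∑ k ∈ Sh, (s k + ∑ i ∈ Pl \ RP, (χ i - 1 / 2) * v i k + σ * ∑ i ∈ RP, v i k) ^ 2 ≤
          ∑ k ∈ Sh, (s k) ^ 2 + cp) ∧
      (((Pl \ RP).filter (fun i => χ i = 1)).card : ℝ) + cp ≤ Pl.card ∧
      (((Pl \ RP).filter (fun i => χ i = 0)).card : ℝ) + cp ≤ Pl.card ∧
      ((Pl \ RP).filter (fun i => χ i = 1)).card ≤ 1 ∧
      ((Pl \ RP).filter (fun i => χ i = 0)).card ≤ 1 ∧
      ∑ k, (∑ i ∈ Pl \ RP, (χ i - 1 / 2) * v i k) ^ 2 ≤ 1 := by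
  have hsub1 : ∀ i, ∑ k ∈ Sh, (v i k) ^ 2 ≤ 1 := fun i =>
    (Finset.sum_le_sum_of_subset_of_nonneg (Finset.subset_univ _)
      (fun _ _ _ => sq_nonneg _)).trans (hv i)
  have hcases : Pl.card = 0 ∨ Pl.card = 1 ∨ Pl.card = 2 := by omega
  rcases hcases with h0 | h1 | h2
  · have hP : Pl = ∅ := Finset.card_eq_zero.1 h0
    subst hP
    refine ⟨∅, fun _ => 0, 0, by simp, by simp, by simp, ?_, by simp, by simp, by simp, by simp,
      by simp⟩
    intro σ _
    simp
  · obtain ⟨r, hr⟩ := Finset.card_eq_one.1 h1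
    subst hr
    set c := ∑ k ∈ Sh, s k * v r k with hc
    set n := ∑ k ∈ Sh, (v r k) ^ 2 with hn
    have hn1 : n ≤ 1 := hsub1 r
    have hn0 : 0 ≤ n := Finset.sum_nonneg fun _ _ => sq_nonneg _
    have hexp : ∀ τ : ℝ, ∑ k ∈ Sh, (s k + τ * v r k) ^ 2 =
        ∑ k ∈ Sh, (s k) ^ 2 + 2 * τ * c + τ ^ 2 * n := by
      intro τ
      rw [hc, hn, Finset.mul_sum, Finset.mul_sum, ← Finset.sum_add_distrib,
        ← Finset.sum_add_distrib]
      exact Finset.sum_congr rfl fun k _ => by ring
    have hfull : ∀ τ : ℝ, τ ^ 2 ≤ 1 → ∑ k, (τ * v r k) ^ 2 ≤ 1 := by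
      intro τ hτ
      have : ∑ k, (τ * v r k) ^ 2 = τ ^ 2 * ∑ k, (v r k) ^ 2 := by
        rw [Finset.mul_sum]; exact Finset.sum_congr rfl fun k _ => by ring
      rw [this]
      have h3 := hv r
      have h4 : 0 ≤ ∑ k, (v r k) ^ 2 := Finset.sum_nonneg fun _ _ => sq_nonneg _
      nlinarith
    by_cases hc1 : n / 4 ≤ c
    · refine ⟨∅, fun _ => 0, 0, by simp, by simp, by simp, ?_, by simp, by simp, by simp, by simp,
        ?_⟩
      · intro σ _
        have := hexp (-(1 / 2))
        simp only [Finset.sdiff_empty, Finset.sum_singleton, Finset.sum_empty, mul_zero, add_zero]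
        have e : ∀ k, s k + (0 - 1 / 2) * v r k = s k + (-(1 / 2)) * v r k := fun k => by ring
        simp only [e]
        rw [this]
        linarith
      · simp only [Finset.sdiff_empty, Finset.sum_singleton]
        exact hfull _ (by norm_num)
    · by_cases hc2 : c ≤ -(n / 4)
      · refine ⟨∅, fun _ => 1, 0, by simp, by simp, by simp, ?_, by simp, by simp, by simp,
          by simp, ?_⟩
        · intro σ _
          have := hexp (1 / 2)
          simp only [Finset.sdiff_empty, Finset.sum_singleton, Finset.sum_empty, mul_zero, add_zero]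
          have e : ∀ k, s k + (1 - 1 / 2) * v r k = s k + (1 / 2) * v r k := fun k => by ring
          simp only [e]
          rw [this]
          linarith
        · simp only [Finset.sdiff_empty, Finset.sum_singleton]
          exact hfull _ (by norm_num)
      · push Not at hc1 hc2
        refine ⟨{r}, fun _ => 0, 1 / 2, by simp, by simp, by simp, ?_, ?_, ?_, by simp,
          by simp, by simp⟩
        · intro σ hσ
          have := hexp σ
          simp only [Finset.sdiff_self, Finset.sum_singleton, Finset.sum_empty, add_zero]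
          rw [this]
          rcases hσ with h | h <;> subst h
          · linarith
          · linarith
        · simp only [Finset.sdiff_self, Finset.filter_empty, Finset.card_empty,
            Finset.card_singleton]
          norm_num
        · simp only [Finset.sdiff_self, Finset.filter_empty, Finset.card_empty,
            Finset.card_singleton]
          norm_num
  · obtain ⟨p, q, hpq, hr⟩ := Finset.card_eq_two.1 h2
    subst hr
    set c := ∑ k ∈ Sh, s k * (v p k - v q k) with hc
    set n := ∑ k ∈ Sh, (v p k - v q k) ^ 2 with hn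
    have hdiff : ∑ k, (v p k - v q k) ^ 2 ≤ 4 := by
      calc ∑ k, (v p k - v q k) ^ 2 ≤ ∑ k, (2 * (v p k) ^ 2 + 2 * (v q k) ^ 2) :=
            Finset.sum_le_sum fun k _ => by nlinarith [sq_nonneg (v p k + v q k)]
        _ = 2 * ∑ k, (v p k) ^ 2 + 2 * ∑ k, (v q k) ^ 2 := by
            rw [Finset.sum_add_distrib, Finset.mul_sum, Finset.mul_sum]
        _ ≤ 4 := by linarith [hv p, hv q]
    have hn4 : n ≤ 4 :=
      (Finset.sum_le_sum_of_subset_of_nonneg (Finset.subset_univ _)
        (fun _ _ _ => sq_nonneg _)).trans hdiff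
    have hexp : ∀ τ : ℝ, ∑ k ∈ Sh, (s k + τ * (v p k - v q k)) ^ 2 =
        ∑ k ∈ Sh, (s k) ^ 2 + 2 * τ * c + τ ^ 2 * n := by
      intro τ
      rw [hc, hn, Finset.mul_sum, Finset.mul_sum, ← Finset.sum_add_distrib,
        ← Finset.sum_add_distrib]
      exact Finset.sum_congr rfl fun k _ => by ring
    have hfull : ∀ τ : ℝ, τ ^ 2 ≤ 1 / 4 → ∑ k, (τ * (v p k - v q k)) ^ 2 ≤ 1 := by
      intro τ hτ
      have : ∑ k, (τ * (v p k - v q k)) ^ 2 = τ ^ 2 * ∑ k, (v p k - v q k) ^ 2 := by
        rw [Finset.mul_sum]; exact Finset.sum_congr rfl fun k _ => by ring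
      rw [this]
      have h4 : 0 ≤ ∑ k, (v p k - v q k) ^ 2 := Finset.sum_nonneg fun _ _ => sq_nonneg _
      nlinarith [sq_nonneg τ]
    have hqp : q ≠ p := Ne.symm hpq
    by_cases hc1 : c ≤ 0
    · refine ⟨∅, fun i => if i = p then 1 else 0, 1, by simp, by simp, ?_, ?_, ?_, ?_, ?_, ?_, ?_⟩
      · intro i _
        by_cases h : i = p <;> simp [h]
      · intro σ _
        have := hexp (1 / 2)
        simp only [Finset.sdiff_empty, Finset.sum_empty, mul_zero, add_zero]
        have e : ∀ k, s k + ∑ i ∈ ({p, q} : Finset ι), ((if i = p then (1:ℝ) else 0) - 1 / 2) * v i k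
            = s k + (1 / 2) * (v p k - v q k) := by
          intro k
          rw [Finset.sum_pair hpq, if_pos rfl, if_neg hqp]; ring
        simp only [e]
        rw [this]
        linarith
      · have : (({p, q} : Finset ι) \ ∅).filter (fun i => (if i = p then (1:ℝ) else 0) = 1) = {p} := by
          ext i
          simp only [Finset.sdiff_empty, Finset.mem_filter, Finset.mem_insert,
            Finset.mem_singleton]
          constructor
          · rintro ⟨_, h⟩
            by_contra h3
            rw [if_neg h3] at h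
            norm_num at h
          · intro h; subst h; simp
        rw [this, h2]; norm_num
      · have : (({p, q} : Finset ι) \ ∅).filter (fun i => (if i = p then (1:ℝ) else 0) = 0) = {q} := by
          ext i
          simp only [Finset.sdiff_empty, Finset.mem_filter, Finset.mem_insert,
            Finset.mem_singleton]
          constructor
          · rintro ⟨h3, h⟩
            rcases h3 with h3 | h3
            · rw [if_pos h3] at h; norm_num at h
            · exact h3
          · intro h; subst h; simp [hqp]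
        rw [this, h2]; norm_num
      · have : (({p, q} : Finset ι) \ ∅).filter (fun i => (if i = p then (1:ℝ) else 0) = 1) = {p} := by
          ext i
          simp only [Finset.sdiff_empty, Finset.mem_filter, Finset.mem_insert,
            Finset.mem_singleton]
          constructor
          · rintro ⟨_, h⟩
            by_contra h3
            rw [if_neg h3] at h
            norm_num at h
          · intro h; subst h; simp
        rw [this]; simp
      · have : (({p, q} : Finset ι) \ ∅).filter (fun i => (if i = p then (1:ℝ) else 0) = 0) = {q} := by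
          ext i
          simp only [Finset.sdiff_empty, Finset.mem_filter, Finset.mem_insert,
            Finset.mem_singleton]
          constructor
          · rintro ⟨h3, h⟩
            rcases h3 with h3 | h3
            · rw [if_pos h3] at h; norm_num at h
            · exact h3
          · intro h; subst h; simp [hqp]
        rw [this]; simp
      · have e : ∀ k, ∑ i ∈ ({p, q} : Finset ι) \ ∅, ((if i = p then (1:ℝ) else 0) - 1 / 2) * v i k
            = (1 / 2) * (v p k - v q k) := by
          intro k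
          rw [Finset.sdiff_empty, Finset.sum_pair hpq, if_pos rfl, if_neg hqp]; ring
        simp only [e]
        exact hfull _ (by norm_num)
    · push Not at hc1
      refine ⟨∅, fun i => if i = p then 0 else 1, 1, by simp, by simp, ?_, ?_, ?_, ?_, ?_, ?_, ?_⟩
      · intro i _
        by_cases h : i = p <;> simp [h]
      · intro σ _
        have := hexp (-(1 / 2))
        simp only [Finset.sdiff_empty, Finset.sum_empty, mul_zero, add_zero]
        have e : ∀ k, s k + ∑ i ∈ ({p, q} : Finset ι), ((if i = p then (0:ℝ) else 1) - 1 / 2) * v i k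
            = s k + (-(1 / 2)) * (v p k - v q k) := by
          intro k
          rw [Finset.sum_pair hpq, if_pos rfl, if_neg hqp]; ring
        simp only [e]
        rw [this]
        linarith
      · have : (({p, q} : Finset ι) \ ∅).filter (fun i => (if i = p then (0:ℝ) else 1) = 1) = {q} := by
          ext i
          simp only [Finset.sdiff_empty, Finset.mem_filter, Finset.mem_insert,
            Finset.mem_singleton]
          constructor
          · rintro ⟨h3, h⟩
            rcases h3 with h3 | h3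
            · rw [if_pos h3] at h; norm_num at h
            · exact h3
          · intro h; subst h; simp [hqp]
        rw [this, h2]; norm_num
      · have : (({p, q} : Finset ι) \ ∅).filter (fun i => (if i = p then (0:ℝ) else 1) = 0) = {p} := by
          ext i
          simp only [Finset.sdiff_empty, Finset.mem_filter, Finset.mem_insert,
            Finset.mem_singleton]
          constructor
          · rintro ⟨_, h⟩
            by_contra h3
            rw [if_neg h3] at h
            norm_num at h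
          · intro h; subst h; simp
        rw [this, h2]; norm_num
      · have : (({p, q} : Finset ι) \ ∅).filter (fun i => (if i = p then (0:ℝ) else 1) = 1) = {q} := by
          ext i
          simp only [Finset.sdiff_empty, Finset.mem_filter, Finset.mem_insert,
            Finset.mem_singleton]
          constructor
          · rintro ⟨h3, h⟩
            rcases h3 with h3 | h3
            · rw [if_pos h3] at h; norm_num at h
            · exact h3
          · intro h; subst h; simp [hqp]
        rw [this]; simp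
      · have : (({p, q} : Finset ι) \ ∅).filter (fun i => (if i = p then (0:ℝ) else 1) = 0) = {p} := by
          ext i
          simp only [Finset.sdiff_empty, Finset.mem_filter, Finset.mem_insert,
            Finset.mem_singleton]
          constructor
          · rintro ⟨_, h⟩
            by_contra h3
            rw [if_neg h3] at h
            norm_num at h
          · intro h; subst h; simp
        rw [this]; simp
      · have e : ∀ k, ∑ i ∈ ({p, q} : Finset ι) \ ∅, ((if i = p then (0:ℝ) else 1) - 1 / 2) * v i k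
            = (-(1 / 2)) * (v p k - v q k) := by
          intro k
          rw [Finset.sdiff_empty, Finset.sum_pair hpq, if_pos rfl, if_neg hqp]; ring
        simp only [e]
        exact hfull _ (by norm_num)

end P262L
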