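import Vale.Agent.P262L.Young

/-! P262, bound `√(d log d)`: construction of the signs of a node. -/

set_option linter.unusedSectionVars false

namespace P262L

open Finset
open scoped Classical

variable {d : ℕ} {ι : Type}

lemma sub_quad (P : Par d) (lam : Fin d → ℝ) (lv : Fin d → ℕ)
    (v : ι → Fin d → ℝ) (hv : ∀ i, ∑ k, (v i k) ^ 2 ≤ 1) (l : ℕ) (S : Finset ι) (age : ι → ℕ)
    (I : InvS P v lam lv l S age)
    (W W' : Finset ι) (hW : W = S.filter (fun i => age i = 0))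
    (hW' : W' = W.filter (fun i => ¬ Hv (20 * P.m) v W i)) (u : Fin d → ℝ) :
    |∑ i ∈ W', (∑ k, v i k * u k) ^ 2 - ∑ k, lam k / 2 ^ l * (u k) ^ 2| ≤
        dl P lam l * ∑ k, lam k / 2 ^ l * (u k) ^ 2 + P.C1 * ∑ k, (u k) ^ 2 := by
  have h2 := I.close u
  rw [← hW] at h2
  have hsplit : ∑ i ∈ W, (∑ k, v i k * u k) ^ 2 =
      ∑ i ∈ W.filter (fun i => Hv (20 * P.m) v W i), (∑ k, v i k * u k) ^ 2 +
      ∑ i ∈ W', (∑ k, v i k * u k) ^ 2 := by
    rw [hW']; exact (Finset.sum_filter_add_sum_filter_not _ _ _).symm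
  have h3 := sum_quad_le _ v hv _ (hv_card P v W) u
  have h4 : 0 ≤ ∑ i ∈ W.filter (fun i => Hv (20 * P.m) v W i), (∑ k, v i k * u k) ^ 2 :=
    Finset.sum_nonneg fun _ _ => sq_nonneg _
  rw [hsplit] at h2
  have hN : 0 ≤ ∑ k, (u k) ^ 2 := Finset.sum_nonneg fun _ _ => sq_nonneg _
  have e : P.C1 * ∑ k, (u k) ^ 2 = P.CQ * ∑ k, (u k) ^ 2 + P.h * ∑ k, (u k) ^ 2 := by
    unfold Par.C1; ring
  rw [e]
  have h5 := abs_le.1 h2
  have h6 : 0 ≤ (P.h : ℝ) * ∑ k, (u k) ^ 2 := mul_nonneg (Nat.cast_nonneg _) hN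
  rw [abs_le]
  constructor
  · linarith [h5.1]
  · linarith [h5.2]

lemma SideD.compl {P : Par d} {lam : Fin d → ℝ} {lv : Fin d → ℕ}
    {v : ι → Fin d → ℝ} {l : ℕ} {S : Finset ι} {age : ι → ℕ}
    {W W' Fr T0 : Finset ι} {χ : ι → ℝ} (D : SideD P lam lv v l S age W W' Fr T0 χ) :
    SideD P lam lv v l S age W W' Fr T0 (fun i => 1 - χ i) where
  hW := D.hW
  hW' := D.hW'
  hT0 := D.hT0
  hWT := D.hWT
  hFr := D.hFr
  hFrc := D.hFrc
  hχ := by
    intro i hi
    rcases D.hχ i hi with h | h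
    · right; rw [h]; ring
    · left; rw [h]; ring
  hq := by
    intro u
    have h := D.hq u
    have e : ∑ i ∈ W', (1 - χ i) * (∑ k, v i k * u k) ^ 2
        - (1 / 2) * ∑ i ∈ W', (∑ k, v i k * u k) ^ 2 =
        -(∑ i ∈ W', χ i * (∑ k, v i k * u k) ^ 2
        - (1 / 2) * ∑ i ∈ W', (∑ k, v i k * u k) ^ 2) := by
      have : ∑ i ∈ W', (1 - χ i) * (∑ k, v i k * u k) ^ 2 =
          ∑ i ∈ W', (∑ k, v i k * u k) ^ 2 - ∑ i ∈ W', χ i * (∑ k, v i k * u k) ^ 2 := by
        rw [← Finset.sum_sub_distrib]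
        exact Finset.sum_congr rfl fun i _ => by ring
      rw [this]; ring
    rw [e, abs_neg]
    exact h
  hcls := by
    intro j h1 h2
    have h := D.hcls j h1 h2
    have e : ∑ i ∈ T0.filter (fun i => nage P v W age i = j), (1 - χ i)
        - (1 / 2) * ((T0.filter (fun i => nage P v W age i = j)).card : ℝ) =
        -(∑ i ∈ T0.filter (fun i => nage P v W age i = j), χ i
        - (1 / 2) * ((T0.filter (fun i => nage P v W age i = j)).card : ℝ)) := by
      rw [Finset.sum_sub_distrib, Finset.sum_const, nsmul_eq_mul]; ring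
    rw [e, abs_neg]
    exact h

/-- the flag of coordinate sets -/
def flg (P : Par d) (lv : Fin d → ℕ) (l j : ℕ) : Finset (Fin d) :=
  Finset.univ.filter (fun k => lv k ≤ l + 1 + j ∧ l < lv k + P.J)

lemma flg_mono (P : Par d) (lv : Fin d → ℕ) (l : ℕ) : Monotone (flg P lv l) := by
  intro a b hab k hk
  unfold flg at hk ⊢
  rw [Finset.mem_filter] at hk ⊢
  exact ⟨hk.1, by omega, hk.2.2⟩

lemma flg_zero (P : Par d) (lv : Fin d → ℕ) (l : ℕ) : flg P lv l 0 = P.Q0 lv l := by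
  unfold flg Par.Q0
  rfl

theorem exists_chi (P : Par d) (G : P.Good) (lam : Fin d → ℝ) (lv : Fin d → ℕ)
    (hlv : ∀ l k, l < lv k ↔ P.Lam ≤ lam k / 2 ^ l) (hlam : ∀ k, 0 ≤ lam k)
    (v : ι → Fin d → ℝ) (hv : ∀ i, ∑ k, (v i k) ^ 2 ≤ 1) (l : ℕ) (S : Finset ι) (age : ι → ℕ)
    (I : InvS P v lam lv l S age)
    (W W' Pl RP RY T0 : Finset ι) (hW : W = S.filter (fun i => age i = 0))
    (hW' : W' = W.filter (fun i => ¬ Hv (20 * P.m) v W i))
    (hPl : Pl = S.filter (fun i => age i = P.K + 1)) (hRP : RP ⊆ Pl)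
    (hRY : RY ⊆ S.filter (fun i => age i = P.K)) (hT0 : T0 = S \ (RP ∪ RY))
    (χP : ι → ℝ) (hχP : ∀ i ∈ Pl \ RP, χP i = 0 ∨ χP i = 1)
    (s : Fin d → ℝ)
    (c : Fin d → ℝ) (hc : ∀ k, l < lv k → |c k| ≤ P.b0) :
    ∃ (Fr : Finset ι) (χ : ι → ℝ) (T E : Fin d → ℝ),
      SideD P lam lv v l S age W W' Fr T0 χ ∧
      (∀ i ∈ Pl \ RP, χ i = χP i) ∧
      (∀ k, ∑ i ∈ T0, χ i * v i k = (1 / 2) * ∑ i ∈ T0, v i k + T k + E k +
        ∑ i ∈ Pl \ RP, (χP i - 1 / 2) * v i k) ∧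
      (∀ k, l < lv k → T k = c k) ∧
      (∀ k, lv k ≤ l → |T k| ≤ 1 / (8 * P.b0)) ∧
      (∀ k, lv k ≤ l → (T k) ^ 2 ≤ ∑ i ∈ W', (v i k) ^ 2) ∧
      (∀ j, ∑ k ∈ flg P lv l j, (E k) ^ 2 ≤ 384 * (flg P lv l j).card) ∧
      ∑ k ∈ flg P lv l 0, (s k + E k) ^ 2 ≤
        ∑ k ∈ flg P lv l 0, (s k) ^ 2 + 64 * (flg P lv l 0).card ∧
      (∀ k σ, 0 ≤ σ → (∀ i ∈ S, age i ≤ P.K → |v i k| ≤ σ) → |E k| ≤ P.nF * σ) ∧
      |∑ i ∈ W', χ i - (1 / 2) * W'.card| ≤ (1 / 32) * W'.card + P.m := by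
  have hK1 := G.hK1
  obtain ⟨g, hg1, hg2, hg3, hg4⟩ := tilt_step P G lam lv hlv hlam v l W' (fun i _ => hv i)
    (sub_quad P lam lv v hv l S age I W W' hW hW') c hc
  have heps := eps_le P G lam lv hlv l
  set x : ι → ℝ := fun i => 1 / 2 + ∑ j, v i j * g j with hx
  have hxe : ∀ i ∈ W', |x i - 1 / 2| ≤ 2 * P.b0 * sl lam lv l := by
    intro i hi
    have : x i - 1 / 2 = ∑ j, v i j * g j := by rw [hx]; ring
    rw [this]; exact hg2 i hi
  have hx01 : ∀ i ∈ W', 0 ≤ x i ∧ x i ≤ 1 := by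
    intro i hi
    have := abs_le.1 (hxe i hi)
    constructor <;> linarith [this.1, this.2]
  obtain ⟨z, hz1, hz2, hz3, hz4, hz5⟩ := vertex_data W' v x hx01
  set Fr := W'.filter (fun i => z i ≠ 0 ∧ z i ≠ 1) with hFr
  set Hn := W.filter (fun i => Hv (20 * P.m) v W i) with hHn
  set Hold := S.filter (fun i => 1 ≤ age i ∧ age i ≤ P.K) with hHold
  set Y := (Hn ∪ Hold) \ RY with hY
  have hWmem : ∀ i, i ∈ W ↔ i ∈ S ∧ age i = 0 := fun i => by rw [hW, Finset.mem_filter]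
  have hW'mem : ∀ i, i ∈ W' ↔ i ∈ W ∧ ¬ Hv (20 * P.m) v W i := fun i => by
    rw [hW', Finset.mem_filter]
  have hPlmem : ∀ i, i ∈ Pl ↔ i ∈ S ∧ age i = P.K + 1 := fun i => by rw [hPl, Finset.mem_filter]
  have hRYmem : ∀ i, i ∈ RY → i ∈ S ∧ age i = P.K := fun i hi => by
    have := hRY hi; rwa [Finset.mem_filter] at this
  have hFrmem : ∀ i, i ∈ Fr ↔ i ∈ W' ∧ (z i ≠ 0 ∧ z i ≠ 1) := fun i => by
    rw [hFr, Finset.mem_filter]
  have hHnmem : ∀ i, i ∈ Hn ↔ i ∈ W ∧ Hv (20 * P.m) v W i := fun i => by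
    rw [hHn, Finset.mem_filter]
  have hHoldmem : ∀ i, i ∈ Hold ↔ i ∈ S ∧ (1 ≤ age i ∧ age i ≤ P.K) := fun i => by
    rw [hHold, Finset.mem_filter]
  have hYmem : ∀ i, i ∈ Y ↔ (i ∈ Hn ∨ i ∈ Hold) ∧ i ∉ RY := fun i => by
    rw [hY, Finset.mem_sdiff, Finset.mem_union]
  have hT0mem : ∀ i, i ∈ T0 ↔ i ∈ S ∧ i ∉ RP ∧ i ∉ RY := fun i => by
    rw [hT0, Finset.mem_sdiff, Finset.mem_union]; tauto
  have hT0S : T0 ⊆ S := fun i hi => ((hT0mem i).1 hi).1
  have hWT : W' ⊆ T0 := by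
    intro i hi
    have h1 := ((hWmem i).1 ((hW'mem i).1 hi).1)
    refine (hT0mem i).2 ⟨h1.1, fun h => ?_, fun h => ?_⟩
    · have := (hPlmem i).1 (hRP h); omega
    · have := hRYmem i h; omega
  have hYT : Y ⊆ T0 := by
    intro i hi
    have h1 := (hYmem i).1 hi
    rcases h1.1 with h | h
    · have h2 := ((hWmem i).1 ((hHnmem i).1 h).1)
      refine (hT0mem i).2 ⟨h2.1, fun h => ?_, h1.2⟩
      have := (hPlmem i).1 (hRP h); omega
    · have h2 := (hHoldmem i).1 h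
      refine (hT0mem i).2 ⟨h2.1, fun h => ?_, h1.2⟩
      have := (hPlmem i).1 (hRP h); omega
  have hPT : Pl \ RP ⊆ T0 := by
    intro i hi
    rw [Finset.mem_sdiff] at hi
    have h2 := (hPlmem i).1 hi.1
    refine (hT0mem i).2 ⟨h2.1, hi.2, fun h => ?_⟩
    have := hRYmem i h; omega
  have hWY : Disjoint W' Y := by
    rw [Finset.disjoint_left]
    intro i hi h
    have h1 := (hW'mem i).1 hi
    rcases ((hYmem i).1 h).1 with h2 | h2
    · exact h1.2 ((hHnmem i).1 h2).2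
    · have h3 := (hHoldmem i).1 h2
      have h4 := (hWmem i).1 h1.1
      omega
  have hFrsub : Fr ⊆ W' := Finset.filter_subset _ _
  have hFrY : Disjoint Fr Y := Finset.disjoint_of_subset_left hFrsub hWY
  have hPW : ∀ i ∈ W', i ∉ Pl := by
    intro i hi h
    have h1 := (hWmem i).1 ((hW'mem i).1 hi).1
    have h2 := (hPlmem i).1 h
    omega
  have hPY : ∀ i ∈ Y, i ∉ Pl := by
    intro i hi h
    have h2 := (hPlmem i).1 h
    rcases ((hYmem i).1 hi).1 with h1 | h1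
    · have h3 := (hWmem i).1 ((hHnmem i).1 h1).1
      omega
    · have h3 := (hHoldmem i).1 h1
      omega
  have hT0c : ∀ i ∈ T0, i ∈ W' ∨ i ∈ Y ∨ i ∈ Pl \ RP := by
    intro i hi
    have h1 := (hT0mem i).1 hi
    have h2 := I.age_le i h1.1
    by_cases h0 : age i = 0
    · have h3 : i ∈ W := (hWmem i).2 ⟨h1.1, h0⟩
      by_cases h4 : Hv (20 * P.m) v W i
      · right; left; exact (hYmem i).2 ⟨Or.inl ((hHnmem i).2 ⟨h3, h4⟩), h1.2.2⟩
      · left; exact (hW'mem i).2 ⟨h3, h4⟩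
    · by_cases h5 : age i ≤ P.K
      · right; left
        exact (hYmem i).2 ⟨Or.inr ((hHoldmem i).2 ⟨h1.1, by omega, h5⟩), h1.2.2⟩
      · right; right
        rw [Finset.mem_sdiff]
        exact ⟨(hPlmem i).2 ⟨h1.1, by omega⟩, h1.2.1⟩
  obtain ⟨χ', E, hχ'1, hχ'2, hE, hE1, hE2⟩ := young_round Fr Y hFrY z
    (fun i hi => hz1 i (hFrsub hi)) v hv (nage P v W age) (flg P lv l) (flg_mono P lv l) s
  set χ : ι → ℝ := fun i => if i ∈ Pl then χP i else if i ∈ Fr ∪ Y then χ' i else z i with hχ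
  have hχPl : ∀ i ∈ Pl, χ i = χP i := fun i hi => by simp only [hχ, if_pos hi]
  have hχFr : ∀ i ∈ Fr, χ i = χ' i := fun i hi => by
    simp only [hχ, if_neg (hPW i (hFrsub hi)), if_pos (Finset.mem_union_left Y hi)]
  have hχY : ∀ i ∈ Y, χ i = χ' i := fun i hi => by
    simp only [hχ, if_neg (hPY i hi), if_pos (Finset.mem_union_right Fr hi)]
  have hχz : ∀ i ∈ W', i ∉ Fr → χ i = z i := by
    intro i hi hi2
    have h1 : i ∉ Fr ∪ Y := by
      rw [Finset.mem_union]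
      rintro (h | h)
      · exact hi2 h
      · exact (Finset.disjoint_left.1 hWY hi) h
    simp only [hχ, if_neg (hPW i hi), if_neg h1]
  have hχ01 : ∀ i ∈ T0, χ i = 0 ∨ χ i = 1 := by
    intro i hi
    rcases hT0c i hi with h | h | h
    · by_cases h1 : i ∈ Fr
      · rw [hχFr i h1]; exact hχ'1 i (Finset.mem_union_left _ h1)
      · rw [hχz i h h1]
        by_contra hcon
        push Not at hcon
        exact h1 ((hFrmem i).2 ⟨h, hcon⟩)
    · rw [hχY i h]; exact hχ'1 i (Finset.mem_union_right _ h)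
    · rw [hχPl i (Finset.mem_sdiff.1 h).1]; exact hχP i h
  have hhalf := fun (φ : ι → ℝ) (hφ : ∀ i ∈ W', 0 ≤ φ i)
      (he : ∑ i ∈ W', z i * φ i = ∑ i ∈ W', x i * φ i) =>
    half_data W' Fr hFrsub x z χ φ (2 * P.b0 * sl lam lv l) hφ hxe hz1
      (fun i hi => hχ01 i (hWT (hFrsub hi))) hχz he
  have hYcls : ∀ j, 1 ≤ j → j ≤ P.K → T0.filter (fun i => nage P v W age i = j) =
      Y.filter (fun i => nage P v W age i = j) := by
    intro j hj1 hj2
    ext i
    rw [Finset.mem_filter, Finset.mem_filter]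
    constructor
    · rintro ⟨h1, h2⟩
      refine ⟨?_, h2⟩
      rcases hT0c i h1 with h | h | h
      · exfalso
        have h4 := (hW'mem i).1 h
        have h5 := (hWmem i).1 h4.1
        unfold nage at h2
        rw [if_pos h5.2, if_neg h4.2] at h2
        omega
      · exact h
      · exfalso
        have h4 := (hPlmem i).1 (Finset.mem_sdiff.1 h).1
        unfold nage at h2
        rw [if_neg (by omega)] at h2
        omega
    · rintro ⟨h1, h2⟩
      exact ⟨hYT h1, h2⟩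
  refine ⟨Fr, χ, fun k => ∑ i ∈ W', (∑ j, v i j * g j) * v i k, E, ?_, ?_, ?_, hg1, hg3, hg4,
    hE1, hE2, ?_, ?_⟩
  · refine ⟨hW, hW', hT0S, hWT, hFrsub, hz2, hχ01, ?_, ?_⟩
    · intro u
      exact hhalf _ (fun _ _ => sq_nonneg _) (hz4 u)
    · intro j hj1 hj2
      rw [hYcls j hj1 hj2]
      have h := hχ'2 j
      have e2 : ∑ i ∈ Y.filter (fun i => nage P v W age i = j), (χ' i - 1 / 2) =
          ∑ i ∈ Y.filter (fun i => nage P v W age i = j), χ i
        - (1 / 2) * ((Y.filter (fun i => nage P v W age i = j)).card : ℝ) := by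
        rw [Finset.card_eq_sum_ones]
        push_cast
        rw [Finset.mul_sum, ← Finset.sum_sub_distrib]
        refine Finset.sum_congr rfl fun i hi => ?_
        rw [hχY i (Finset.mem_filter.1 hi).1]; ring
      rw [← e2]; exact h
  · intro i hi
    exact hχPl i (Finset.mem_sdiff.1 hi).1
  · intro k
    have hT0e : T0 = (W' ∪ Y) ∪ (Pl \ RP) := by
      ext i
      rw [Finset.mem_union, Finset.mem_union]
      constructor
      · intro hi
        rcases hT0c i hi with h | h | h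
        · exact Or.inl (Or.inl h)
        · exact Or.inl (Or.inr h)
        · exact Or.inr h
      · rintro ((h | h) | h)
        · exact hWT h
        · exact hYT h
        · exact hPT h
    have hd2 : Disjoint (W' ∪ Y) (Pl \ RP) := by
      rw [Finset.disjoint_left]
      intro i hi h
      rcases Finset.mem_union.1 hi with h1 | h1
      · exact hPW i h1 (Finset.mem_sdiff.1 h).1
      · exact hPY i h1 (Finset.mem_sdiff.1 h).1
    have e0 : ∑ i ∈ T0, χ i * v i k = (1 / 2) * ∑ i ∈ T0, v i k +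
        ∑ i ∈ T0, (χ i - 1 / 2) * v i k := by
      rw [Finset.mul_sum, ← Finset.sum_add_distrib]
      exact Finset.sum_congr rfl fun i _ => by ring
    have e1 : ∑ i ∈ T0, (χ i - 1 / 2) * v i k = ∑ i ∈ W', (χ i - 1 / 2) * v i k +
        ∑ i ∈ Y, (χ' i - 1 / 2) * v i k + ∑ i ∈ Pl \ RP, (χP i - 1 / 2) * v i k := by
      rw [hT0e, Finset.sum_union hd2, Finset.sum_union hWY]
      congr 1
      · congr 1
        exact Finset.sum_congr rfl fun i hi => by rw [hχY i hi]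
      · exact Finset.sum_congr rfl fun i hi => by rw [hχPl i (Finset.mem_sdiff.1 hi).1]
    have e2 : ∑ i ∈ W', (χ i - 1 / 2) * v i k = ∑ i ∈ W', (z i - 1 / 2) * v i k +
        ∑ i ∈ Fr, (χ' i - z i) * v i k := by
      have h0 : ∑ i ∈ Fr, (χ' i - z i) * v i k = ∑ i ∈ W', (χ i - z i) * v i k := by
        have h00 : ∑ i ∈ Fr, (χ' i - z i) * v i k = ∑ i ∈ Fr, (χ i - z i) * v i k :=
          Finset.sum_congr rfl fun i hi => by rw [hχFr i hi]
        rw [h00]
        apply Finset.sum_subset hFrsub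
        intro i hi hi2
        rw [hχz i hi hi2]; ring
      rw [h0, ← Finset.sum_add_distrib]
      exact Finset.sum_congr rfl fun i _ => by ring
    have e3 : ∑ i ∈ W', (z i - 1 / 2) * v i k = ∑ i ∈ W', (∑ j, v i j * g j) * v i k := by
      have h1 : ∑ i ∈ W', (z i - 1 / 2) * v i k = ∑ i ∈ W', z i * v i k
          - (1 / 2) * ∑ i ∈ W', v i k := by
        rw [Finset.mul_sum, ← Finset.sum_sub_distrib]
        exact Finset.sum_congr rfl fun i _ => by ring
      have h2 : ∑ i ∈ W', x i * v i k = (1 / 2) * ∑ i ∈ W', v i k +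
          ∑ i ∈ W', (∑ j, v i j * g j) * v i k := by
        rw [Finset.mul_sum, ← Finset.sum_add_distrib]
        refine Finset.sum_congr rfl fun i hi => ?_
        simp only [hx]; ring
      rw [h1, hz3 k, h2]; ring
    rw [e0, e1, e2, e3, hE k]; ring
  · intro k σ hσ hvs
    rw [hE k]
    have hFrS : ∀ i ∈ Fr, |v i k| ≤ σ := by
      intro i hi
      have h1 := (hWmem i).1 ((hW'mem i).1 (hFrsub hi)).1
      exact hvs i h1.1 (by omega)
    have hYS : ∀ i ∈ Y, |v i k| ≤ σ := by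
      intro i hi
      rcases ((hYmem i).1 hi).1 with h1 | h1
      · have h3 := (hWmem i).1 ((hHnmem i).1 h1).1
        exact hvs i h3.1 (by omega)
      · have h3 := (hHoldmem i).1 h1
        exact hvs i h3.1 (by omega)
    have b1 : |∑ i ∈ Fr, (χ' i - z i) * v i k| ≤ Fr.card * σ := by
      calc _ ≤ ∑ i ∈ Fr, |(χ' i - z i) * v i k| := Finset.abs_sum_le_sum_abs _ _
        _ ≤ ∑ i ∈ Fr, σ := by
            refine Finset.sum_le_sum fun i hi => ?_
            rw [abs_mul]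
            have h1 : |χ' i - z i| ≤ 1 := by
              have := hz1 i (hFrsub hi)
              rw [abs_le]
              rcases hχ'1 i (Finset.mem_union_left _ hi) with h | h <;> rw [h] <;>
                constructor <;> linarith
            calc _ ≤ 1 * σ := mul_le_mul h1 (hFrS i hi) (abs_nonneg _) zero_le_one
              _ = σ := one_mul σ
        _ = Fr.card * σ := by rw [Finset.sum_const, nsmul_eq_mul]
    have b2 : |∑ i ∈ Y, (χ' i - 1 / 2) * v i k| ≤ Y.card * σ := by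
      calc _ ≤ ∑ i ∈ Y, |(χ' i - 1 / 2) * v i k| := Finset.abs_sum_le_sum_abs _ _
        _ ≤ ∑ i ∈ Y, σ := by
            refine Finset.sum_le_sum fun i hi => ?_
            rw [abs_mul]
            have h1 : |χ' i - 1 / 2| ≤ 1 := by
              rcases hχ'1 i (Finset.mem_union_right _ hi) with h | h <;> rw [h] <;> norm_num
            calc _ ≤ 1 * σ := mul_le_mul h1 (hYS i hi) (abs_nonneg _) zero_le_one
              _ = σ := one_mul σ
        _ = Y.card * σ := by rw [Finset.sum_const, nsmul_eq_mul]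
    have hcard : (Fr.card : ℝ) + Y.card ≤ P.nF := by
      have h1 : (Fr.card : ℝ) ≤ P.m := by exact_mod_cast hz2
      have h2 : (Hn.card : ℝ) ≤ P.h := by exact_mod_cast hv_card P v W
      have h3 := old_card P v lam lv l S age I
      have h4 : (Y.card : ℝ) ≤ Hn.card + Hold.card := by
        have h5 : Y.card ≤ (Hn ∪ Hold).card := Finset.card_le_card Finset.sdiff_subset
        have h6 := Finset.card_union_le Hn Hold
        exact_mod_cast h5.trans h6
      unfold Par.nF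
      linarith
    calc _ ≤ |∑ i ∈ Fr, (χ' i - z i) * v i k| + |∑ i ∈ Y, (χ' i - 1 / 2) * v i k| := abs_add_le _ _
      _ ≤ Fr.card * σ + Y.card * σ := add_le_add b1 b2
      _ = (Fr.card + Y.card) * σ := by ring
      _ ≤ P.nF * σ := mul_le_mul_of_nonneg_right hcard hσ
  · have h := hhalf (fun _ => 1) (fun _ _ => zero_le_one) (by simpa using hz5)
    simp only [mul_one, Finset.sum_const, nsmul_eq_mul] at h
    have h1 : (Fr.card : ℝ) ≤ P.m := by exact_mod_cast hz2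
    have h2 : 2 * P.b0 * sl lam lv l * (W'.card : ℝ) ≤ 1 / 32 * (W'.card : ℝ) :=
      mul_le_mul_of_nonneg_right heps (Nat.cast_nonneg _)
    refine h.trans ?_
    linarith

end P262L
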