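import Vale.Agent.P262L.Num

/-! P262, bound `√(d log d)`: one step of the recursion. -/

set_option linter.unusedSectionVars false

namespace P262L

open Finset
open scoped Classical

variable {d : ℕ} {ι : Type}

/-- termination measure -/
def mu (P : Par d) (S : Finset ι) (age : ι → ℕ) : ℕ := ∑ i ∈ S, wt P (age i)

lemma wt_pos (P : Par d) (a : ℕ) (ha : a ≤ P.K + 1) : 0 < wt P a := by
  unfold wt; split_ifs <;> omega

lemma wt_nage_lt (P : Par d) (v : ι → Fin d → ℝ) (W : Finset ι) (age : ι → ℕ) (i : ι)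
    (hi : age i ≤ P.K) (h : ¬ (age i = 0 ∧ ¬ Hv (20 * P.m) v W i)) :
    wt P (nage P v W age i) < wt P (age i) := by
  unfold wt nage
  by_cases h0 : age i = 0
  · have h1 : Hv (20 * P.m) v W i := by
      by_contra h2; exact h ⟨h0, h2⟩
    rw [if_pos h0, if_pos h1, if_pos h0, if_neg (by norm_num)]
    omega
  · rw [if_neg h0, if_neg h0, if_neg (by omega)]
    omega

lemma wt_nage_le (P : Par d) (v : ι → Fin d → ℝ) (W : Finset ι) (age : ι → ℕ) (i : ι)
    (hi : age i ≤ P.K + 1) : wt P (nage P v W age i) ≤ wt P (age i) := by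
  by_cases h1 : age i ≤ P.K
  · by_cases h2 : age i = 0 ∧ ¬ Hv (20 * P.m) v W i
    · unfold wt nage
      rw [if_pos h2.1, if_neg h2.2, if_pos rfl, if_pos h2.1]
    · exact (wt_nage_lt P v W age i h1 h2).le
  · have h3 : age i = P.K + 1 := by omega
    unfold wt nage
    rw [if_neg (by omega : ¬ age i = 0), if_neg (by omega), if_neg (by omega)]
    omega

lemma mu_lt (P : Par d) (lam : Fin d → ℝ) (lv : Fin d → ℕ)
    (v : ι → Fin d → ℝ) (l : ℕ) (S : Finset ι) (age : ι → ℕ)
    (W W' Fr T0 : Finset ι) (χ : ι → ℝ) (D : SideD P lam lv v l S age W W' Fr T0 χ)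
    (hS : ∃ i ∈ S, age i ≤ P.K) (hage : ∀ i ∈ S, age i ≤ P.K + 1)
    (hcount : |∑ i ∈ W', χ i - (1 / 2) * W'.card| ≤ (1 / 32) * W'.card + P.m) :
    mu P (T0.filter (fun i => χ i = 1)) (nage P v W age) < mu P S age := by
  have hsubT : T0.filter (fun i => χ i = 1) ⊆ T0 := Finset.filter_subset _ _
  have hT0S : T0 ⊆ S := D.hT0
  have h1 : mu P (T0.filter (fun i => χ i = 1)) (nage P v W age) ≤
      mu P (T0.filter (fun i => χ i = 1)) age :=
    Finset.sum_le_sum fun i hi => wt_nage_le P v W age i (hage i (hT0S (hsubT hi)))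
  by_cases hex : ∃ i ∈ S, i ∉ T0.filter (fun i => χ i = 1)
  · obtain ⟨i, hi, hi2⟩ := hex
    have h2 : mu P (T0.filter (fun i => χ i = 1)) age < mu P S age := by
      unfold mu
      exact Finset.sum_lt_sum_of_subset (hsubT.trans hT0S) hi hi2 (wt_pos P _ (hage i hi))
        (fun _ _ _ => Nat.zero_le _)
    exact lt_of_le_of_lt h1 h2
  · push Not at hex
    have hSe : T0.filter (fun i => χ i = 1) = S :=
      Finset.Subset.antisymm (hsubT.trans hT0S) hex
    by_cases hex2 : ∃ i ∈ S, age i ≤ P.K ∧ ¬ (age i = 0 ∧ ¬ Hv (20 * P.m) v W i)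
    · obtain ⟨i, hi, hiK, hi2⟩ := hex2
      rw [hSe]
      unfold mu
      refine Finset.sum_lt_sum (fun j hj => ?_) ⟨i, hi, ?_⟩
      · exact wt_nage_le P v W age j (hage j hj)
      · exact wt_nage_lt P v W age i hiK hi2
    · exfalso
      push Not at hex2
      have hWW : W' = W := by
        rw [D.hW']
        apply Finset.filter_true_of_mem
        intro i hi
        have h3 := hi
        rw [D.hW, Finset.mem_filter] at h3
        exact (hex2 i h3.1 (by omega)).2
      have hχ1 : ∀ i ∈ W', χ i = 1 := by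
        intro i hi
        have h3 := D.hT0 (D.hWT hi)
        exact (Finset.mem_filter.1 (hex i h3)).2
      have hsum : ∑ i ∈ W', χ i = W'.card := by
        rw [Finset.sum_congr rfl hχ1]; simp
      obtain ⟨i0, hi0, hi0K⟩ := hS
      have h3 := (hex2 i0 hi0 hi0K).2
      unfold Hv at h3
      push Not at h3
      have h4 := h3.2
      rw [← hWW] at h4
      have hm1 : (1:ℝ) ≤ P.m := by
        have : 0 < P.m := by unfold Par.m; positivity
        exact_mod_cast this
      have h5 : (20:ℝ) * P.m ≤ W'.card := by exact_mod_cast h4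
      rw [hsum] at hcount
      have h6 := (abs_le.1 hcount).2
      linarith

lemma filt_pool (P : Par d) (v : ι → Fin d → ℝ) (W S Pl RP RY T0 : Finset ι) (age : ι → ℕ)
    (hPl : Pl = S.filter (fun i => age i = P.K + 1)) (hage : ∀ i ∈ S, age i ≤ P.K + 1)
    (hK1 : 1 ≤ P.K)
    (hT0 : T0 = S \ (RP ∪ RY)) (χ χP : ι → ℝ) (hχ : ∀ i ∈ Pl \ RP, χ i = χP i) (τ : ℝ) :
    ((T0.filter (fun i => χ i = τ)).filter (fun i => nage P v W age i = P.K + 1)).card ≤
      ((Pl \ RP).filter (fun i => χP i = τ)).card +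
        ((S.filter (fun i => age i = P.K)) \ RY).card := by
  have hsub : (T0.filter (fun i => χ i = τ)).filter (fun i => nage P v W age i = P.K + 1) ⊆
      (Pl \ RP).filter (fun i => χP i = τ) ∪ ((S.filter (fun i => age i = P.K)) \ RY) := by
    intro i hi
    rw [Finset.mem_filter, Finset.mem_filter, hT0, Finset.mem_sdiff, Finset.mem_union] at hi
    obtain ⟨⟨⟨h1, h2⟩, h3⟩, h4⟩ := hi
    push Not at h2
    have h5 := hage i h1
    rw [Finset.mem_union]
    have h6 : age i ≠ 0 := by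
      intro h6
      unfold nage at h4
      rw [if_pos h6] at h4
      split_ifs at h4
      omega
    unfold nage at h4
    rw [if_neg h6] at h4
    by_cases h8 : age i = P.K + 1
    · left
      have h9 : i ∈ Pl \ RP := by
        rw [Finset.mem_sdiff, hPl, Finset.mem_filter]; exact ⟨⟨h1, h8⟩, h2.1⟩
      rw [Finset.mem_filter]
      exact ⟨h9, by rw [← hχ i h9]; exact h3⟩
    · right
      rw [Finset.mem_sdiff, Finset.mem_filter]
      exact ⟨⟨h1, by omega⟩, h2.2⟩
  exact (Finset.card_le_card hsub).trans (Finset.card_union_le _ _)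

theorem step (P : Par d) (G : P.Good) (lam : Fin d → ℝ) (lv : Fin d → ℕ)
    (hlv : ∀ l k, l < lv k ↔ P.Lam ≤ lam k / 2 ^ l) (hlam : ∀ k, 0 ≤ lam k)
    (v : ι → Fin d → ℝ) (hv : ∀ i, ∑ k, (v i k) ^ 2 ≤ 1) (l : ℕ) (S : Finset ι) (age : ι → ℕ)
    (I : InvS P v lam lv l S age) (hS : ∃ i ∈ S, age i ≤ P.K) (a b : Fin d → ℝ)
    (hab : ∀ k, b k = a k + ∑ i ∈ S, v i k)
    (ha : BdE P lv l (S.filter (fun i => age i = P.K + 1)).card a)
    (hb : BdE P lv l (S.filter (fun i => age i = P.K + 1)).card b) :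
    ∃ (SL SR R : Finset ι) (ag : ι → ℕ),
      Disjoint SL SR ∧ R ⊆ S ∧ SL ∪ SR = S \ R ∧ R.card ≤ 2 ∧
      InvS P v lam lv (l + 1) SL ag ∧ InvS P v lam lv (l + 1) SR ag ∧
      BdE P lv (l + 1) (SL.filter (fun i => ag i = P.K + 1)).card a ∧
      BdE P lv (l + 1) (SL.filter (fun i => ag i = P.K + 1)).card
        (fun k => a k + ∑ i ∈ SL, v i k) ∧
      BdE P lv (l + 1) (SR.filter (fun i => ag i = P.K + 1)).card
        (fun k => a k + ∑ i ∈ SL, v i k + ∑ i ∈ R, v i k) ∧
      BdE P lv (l + 1) (SR.filter (fun i => ag i = P.K + 1)).card b ∧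
      mu P SL ag < mu P S age ∧ mu P SR ag < mu P S age := by
  have hK1 := G.hK1
  set W := S.filter (fun i => age i = 0) with hW
  set W' := W.filter (fun i => ¬ Hv (20 * P.m) v W i) with hW'
  set Pl := S.filter (fun i => age i = P.K + 1) with hPl
  set s : Fin d → ℝ := fun k => if l < lv k then 0 else (1 / 2) * (a k + b k) with hs
  have ha0 := end_abs P G lv l _ a ha
  have hb0 := end_abs P G lv l _ b hb
  have hs0 : ∀ k, l < lv k → s k = 0 := fun k hk => by simp only [hs, if_pos hk]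
  have hs1 : ∀ k, lv k ≤ l → s k = (1 / 2) * (a k + b k) := fun k hk => by
    simp only [hs, if_neg (not_lt.2 hk)]
  have habs : ∀ k, |(1 / 2) * (a k + b k)| ≤ P.b0 := by
    intro k
    rw [abs_mul, abs_of_pos (by norm_num : (0:ℝ) < 1 / 2)]
    have := abs_add_le (a k) (b k)
    linarith [ha0 k, hb0 k]
  have hsb : ∀ k, |s k| ≤ P.b0 := by
    intro k
    by_cases hk : l < lv k
    · rw [hs0 k hk, abs_zero]; linarith [G.b0_ge]
    · rw [hs1 k (not_lt.1 hk)]; exact habs k
  have hsB : ∑ k ∈ Finset.univ.filter (fun k => lv k ≤ l), (s k) ^ 2 + Pl.card ≤ P.BB lv l := by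
    have h1 := ha l le_rfl
    have h2 := hb l le_rfl
    have he : Finset.univ.filter (fun k : Fin d => l < lv k ∧ lv k ≤ l) = ∅ := by
      apply Finset.filter_eq_empty_iff.2
      intro k _; omega
    rw [he, Finset.card_empty] at h1 h2
    have h3 : ∑ k ∈ Finset.univ.filter (fun k => lv k ≤ l), (s k) ^ 2 ≤
        (1 / 2) * (∑ k ∈ Finset.univ.filter (fun k => lv k ≤ l), (a k) ^ 2 +
          ∑ k ∈ Finset.univ.filter (fun k => lv k ≤ l), (b k) ^ 2) := by
      rw [← Finset.sum_add_distrib, Finset.mul_sum]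
      refine Finset.sum_le_sum fun k hk => ?_
      rw [hs1 k (Finset.mem_filter.1 hk).2]
      nlinarith [sq_nonneg (a k - b k)]
    simp only [Nat.cast_zero, mul_zero, add_zero] at h1 h2
    linarith
  obtain ⟨RP, χP, cp, hRP, hRPc, hχP, hpw, hpc1, hpc0, hp1, hp0, hpn⟩ :=
    pool_step Pl I.pool v hv (Finset.univ.filter (fun k => lv k ≤ l + 1)) s
  set RY := if P.Q0 lv l = ∅ then S.filter (fun i => age i = P.K) else ∅ with hRY
  have hRYs : RY ⊆ S.filter (fun i => age i = P.K) := by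
    rw [hRY]; split_ifs
    · exact Finset.Subset.refl _
    · exact Finset.empty_subset _
  have htop := top_card P G v lam lv l S age I
  have hRYc : RY.card ≤ 1 := (Finset.card_le_card hRYs).trans htop
  set α := ((S.filter (fun i => age i = P.K)) \ RY).card with hα
  have hα1 : α ≤ 1 := (Finset.card_le_card Finset.sdiff_subset).trans htop
  have hαQ : α ≤ (P.Q0 lv l).card := by
    by_cases hq : P.Q0 lv l = ∅
    · rw [hα, hRY, if_pos hq]; simp
    · have : 0 < (P.Q0 lv l).card := Finset.card_pos.2 (Finset.nonempty_iff_ne_empty.2 hq)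
      omega
  set p : Fin d → ℝ := fun k => ∑ i ∈ Pl \ RP, (χP i - 1 / 2) * v i k with hp
  set T0 := S \ (RP ∪ RY) with hT0
  obtain ⟨Fr, χ, T, E, D, hχPl, hid, hTl, hTs, hTs2, hE1, hE2, hEs, hcount⟩ :=
    exists_chi P G lam lv hlv hlam v hv l S age I W W' Pl RP RY T0 hW hW' hPl hRP hRYs hT0
      χP hχP (fun k => s k + p k) (fun k => -((1 / 2) * (a k + b k))) (by
        intro k _
        rw [abs_neg]; exact habs k)
  have D' := D.compl
  have hcount' : |∑ i ∈ W', (1 - χ i) - (1 / 2) * W'.card| ≤ (1 / 32) * W'.card + P.m := by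
    have e : ∑ i ∈ W', (1 - χ i) - (1 / 2) * (W'.card : ℝ) =
        -(∑ i ∈ W', χ i - (1 / 2) * (W'.card : ℝ)) := by
      rw [Finset.sum_sub_distrib, Finset.sum_const, nsmul_eq_mul]; ring
    rw [e, abs_neg]; exact hcount
  -- pool counts
  set SL := T0.filter (fun i => χ i = 1) with hSL
  set SR := T0.filter (fun i => 1 - χ i = 1) with hSR
  have hSR0 : SR = T0.filter (fun i => χ i = 0) := by
    rw [hSR]
    apply Finset.filter_congr
    intro i _
    constructor <;> intro h <;> linarith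
  have hcL := filt_pool P v W S Pl RP RY T0 age hPl I.age_le hK1 hT0 χ χP hχPl 1
  have hcR := filt_pool P v W S Pl RP RY T0 age hPl I.age_le hK1 hT0 χ χP hχPl 0
  rw [← hSL, ← hα] at hcL
  rw [← hSR0, ← hα] at hcR
  have hcL' : (((SL.filter (fun i => nage P v W age i = P.K + 1)).card : ℕ) : ℝ) + cp ≤
      (Pl.card : ℝ) + α := by
    have : (((SL.filter (fun i => nage P v W age i = P.K + 1)).card : ℕ) : ℝ) ≤
        (((Pl \ RP).filter (fun i => χP i = 1)).card : ℝ) + α := by exact_mod_cast hcL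
    linarith
  have hcR' : (((SR.filter (fun i => nage P v W age i = P.K + 1)).card : ℕ) : ℝ) + cp ≤
      (Pl.card : ℝ) + α := by
    have : (((SR.filter (fun i => nage P v W age i = P.K + 1)).card : ℕ) : ℝ) ≤
        (((Pl \ RP).filter (fun i => χP i = 0)).card : ℝ) + α := by exact_mod_cast hcR
    linarith
  have hcL2 : (SL.filter (fun i => nage P v W age i = P.K + 1)).card ≤ Pl.card + α := by
    refine hcL.trans (Nat.add_le_add_right ?_ _)
    exact Finset.card_le_card ((Finset.filter_subset _ _).trans Finset.sdiff_subset)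
  have hcR2 : (SR.filter (fun i => nage P v W age i = P.K + 1)).card ≤ Pl.card + α := by
    refine hcR.trans (Nat.add_le_add_right ?_ _)
    exact Finset.card_le_card ((Finset.filter_subset _ _).trans Finset.sdiff_subset)
  -- sums
  have hRS : RP ∪ RY ⊆ S := by
    intro i hi
    rcases Finset.mem_union.1 hi with h | h
    · exact (Finset.mem_filter.1 (hRP h)).1
    · exact (Finset.mem_filter.1 (hRYs h)).1
  have hRd : Disjoint RP RY := by
    rw [Finset.disjoint_left]
    intro i h1 h2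
    have h3 := (Finset.mem_filter.1 (hRP h1)).2
    have h4 := (Finset.mem_filter.1 (hRYs h2)).2
    omega
  have hSsum : ∀ k, ∑ i ∈ S, v i k = ∑ i ∈ T0, v i k + (∑ i ∈ RP, v i k + ∑ i ∈ RY, v i k) := by
    intro k
    rw [hT0, ← Finset.sum_union hRd]
    exact (Finset.sum_sdiff hRS).symm
  have hSLs : ∀ k, ∑ i ∈ SL, v i k = ∑ i ∈ T0, χ i * v i k := fun k =>
    sum_filter_one T0 χ D.hχ (fun i => v i k)
  -- the tilt on short coordinates
  set T' : Fin d → ℝ := fun k => if l < lv k then 0 else T k with hT'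
  have hT'0 : ∀ k, l < lv k → T' k = 0 := fun k hk => by simp only [hT', if_pos hk]
  have hT'1 : ∀ k, lv k ≤ l → T' k = T k := fun k hk => by
    simp only [hT', if_neg (not_lt.2 hk)]
  have hT'b : ∀ k, |T' k| ≤ 1 / (8 * P.b0) := by
    intro k
    by_cases hk : l < lv k
    · rw [hT'0 k hk, abs_zero]
      have := G.b0_ge
      positivity
    · rw [hT'1 k (not_lt.1 hk)]; exact hTs k (not_lt.1 hk)
  have hval : ∀ (σ : ℝ) (k : Fin d), a k + ∑ i ∈ SL, v i k +
      (σ + 1 / 2) * (∑ i ∈ RP, v i k + ∑ i ∈ RY, v i k) =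
      s k + p k + E k + T' k + (σ * ∑ i ∈ RP, v i k + σ * ∑ i ∈ RY, v i k) := by
    intro σ k
    rw [hSLs k, hid k]
    have h1 := hab k
    rw [hSsum k] at h1
    by_cases hk : l < lv k
    · rw [hs0 k hk, hT'0 k hk, hTl k hk]
      simp only [hp]
      linarith
    · rw [hs1 k (not_lt.1 hk), hT'1 k (not_lt.1 hk)]
      simp only [hp]
      linarith
  have hsq1 : ∀ (σ : ℝ) (R : Finset ι), R.card ≤ 1 → σ ^ 2 = 1 / 4 →
      ∑ k, (σ * ∑ i ∈ R, v i k) ^ 2 ≤ 1 / 4 := by
    intro σ R hR hσ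
    have e : ∑ k, (σ * ∑ i ∈ R, v i k) ^ 2 = (1 / 4) * ∑ k, (∑ i ∈ R, v i k) ^ 2 := by
      rw [Finset.mul_sum]
      exact Finset.sum_congr rfl fun k _ => by rw [mul_pow, hσ]
    rw [e]
    have h1 : ∑ k, (∑ i ∈ R, v i k) ^ 2 ≤ 1 := by
      have hc : R.card = 0 ∨ R.card = 1 := by omega
      rcases hc with h | h
      · rw [Finset.card_eq_zero.1 h]; simp
      · obtain ⟨r, hr⟩ := Finset.card_eq_one.1 h
        rw [hr]; simp only [Finset.sum_singleton]; exact hv r
    linarith
  have hmid : ∀ (σ : ℝ), (σ = 1 / 2 ∨ σ = -1 / 2) → ∀ p' : ℕ,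
      ((p' : ℝ) + cp ≤ (Pl.card : ℝ) + α) →
      BdE P lv (l + 1) p' (fun k => s k + p k + E k + T' k +
        (σ * ∑ i ∈ RP, v i k + σ * ∑ i ∈ RY, v i k)) := by
    intro σ hσ p' hp'
    have hσ2 : σ ^ 2 = 1 / 4 := by rcases hσ with h | h <;> rw [h] <;> norm_num
    refine mid_bound P G lv l s p E T' (fun k => σ * ∑ i ∈ RP, v i k)
      (fun k => σ * ∑ i ∈ RY, v i k) cp Pl.card p' α hs0 hsb hsB (hpw σ hσ) hpn
      (hsq1 σ RP hRPc hσ2) (hsq1 σ RY hRYc hσ2) hE1 hE2 hT'0 hT'b ?_ ?_ hp' hαQ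
    · intro k hk
      have hne : P.Q0 lv l ≠ ∅ := Finset.ne_empty_of_mem hk
      have : RY = ∅ := by rw [hRY, if_neg hne]
      rw [this]; simp
    · intro k hk
      unfold Par.Dd at hk
      simp only [Finset.mem_filter, Finset.mem_univ, true_and] at hk
      have hJK : P.K + 1 ≤ P.J := by unfold Par.J; omega
      set s' := Real.sqrt (2 * P.Lam * (3 / 5 : ℝ) ^ (l - lv k - (P.K + 1))) with hs'
      have hL := G.hL0
      have hs'0 : 0 ≤ s' := Real.sqrt_nonneg _
      have hs'2 : s' ^ 2 = 2 * P.Lam * (3 / 5 : ℝ) ^ (l - lv k - (P.K + 1)) :=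
        Real.sq_sqrt (by positivity)
      have hvs : ∀ i ∈ S, age i ≤ P.K → |v i k| ≤ s' := by
        intro i hi hiK
        have := item_small P G v lam lv l S age I k (by omega) i hi hiK
        exact abs_le_of_sq_le_sq (by rw [hs'2]; exact this) hs'0
      have hTk : |T' k| ≤ s' := by
        rw [hT'1 k (by omega)]
        apply abs_le_of_sq_le_sq _ hs'0
        have h3 := hTs2 k (by omega)
        have h4 : ∑ i ∈ W', (v i k) ^ 2 ≤ ∑ i ∈ W, (v i k) ^ 2 :=
          Finset.sum_le_sum_of_subset_of_nonneg (Finset.filter_subset _ _)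
            (fun _ _ _ => sq_nonneg _)
        have h5 := I.short k (by omega)
        have h6 : 2 * P.Lam * (3 / 5 : ℝ) ^ (l - lv k) ≤
            2 * P.Lam * (3 / 5 : ℝ) ^ (l - lv k - (P.K + 1)) := by
          apply mul_le_mul_of_nonneg_left _ (by positivity)
          exact pow_le_pow_of_le_one (by norm_num) (by norm_num) (by omega)
        rw [hs'2]
        exact h3.trans (h4.trans (h5.trans h6))
      have hEk := hEs k s' hs'0 hvs
      have hYk : |σ * ∑ i ∈ RY, v i k| ≤ s' := by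
        rw [abs_mul]
        have h1 : |σ| ≤ 1 := by rcases hσ with h | h <;> rw [h] <;> norm_num [abs_le]
        have h2 : |∑ i ∈ RY, v i k| ≤ s' := by
          have hc : RY.card = 0 ∨ RY.card = 1 := by omega
          rcases hc with h | h
          · rw [Finset.card_eq_zero.1 h]; simpa using hs'0
          · obtain ⟨r, hr⟩ := Finset.card_eq_one.1 h
            rw [hr, Finset.sum_singleton]
            have h3 : r ∈ RY := by rw [hr]; simp
            have h4 := Finset.mem_filter.1 (hRYs h3)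
            exact hvs r h4.1 (by omega)
        calc |σ| * |∑ i ∈ RY, v i k| ≤ 1 * s' := mul_le_mul h1 h2 (abs_nonneg _) zero_le_one
          _ = s' := one_mul _
      have htt := tiny P G (l - lv k) (by omega) s' hs'0 hs'2
      refine le_trans ?_ htt
      apply mul_le_mul_of_nonneg_left _ (by linarith [G.b0_ge])
      have h1 := abs_add_le (E k + T' k) (σ * ∑ i ∈ RY, v i k)
      have h2 := abs_add_le (E k) (T' k)
      have hnF : 0 ≤ P.nF := by unfold Par.nF; positivity
      have h3 : 0 ≤ P.nF * s' := mul_nonneg hnF hs'0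
      calc |E k + T' k + σ * ∑ i ∈ RY, v i k| ≤ P.nF * s' + s' + s' := by linarith
        _ ≤ (2 * P.nF + 2) * s' := by nlinarith
  refine ⟨SL, SR, RP ∪ RY, nage P v W age, ?_, hRS, ?_, ?_, ?_, ?_, ?_, ?_, ?_, ?_, ?_, ?_⟩
  · rw [Finset.disjoint_left]
    intro i h1 h2
    have h3 := (Finset.mem_filter.1 h1).2
    have h4 := (Finset.mem_filter.1 h2).2
    rw [h3] at h4
    norm_num at h4
  · ext i
    rw [Finset.mem_union]
    constructor
    · rintro (h | h) <;> exact (Finset.mem_filter.1 h).1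
    · intro h
      rcases D.hχ i h with h1 | h1
      · right; exact Finset.mem_filter.2 ⟨h, by rw [h1]; norm_num⟩
      · left; exact Finset.mem_filter.2 ⟨h, h1⟩
  · exact (Finset.card_union_le _ _).trans (by omega)
  · exact side P lam lv v l S age W W' Fr T0 χ D G hlv hlam hv I (by
      rw [← hSL]; omega)
  · exact side P lam lv v l S age W W' Fr T0 _ D' G hlv hlam hv I (by
      rw [← hSR]; omega)
  · exact inherit_bound P lv l _ _ α a ha hcL2 hαQ
  · have h1 := hmid (-1 / 2) (Or.inr rfl) _ hcL'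
    have h2 : (fun k => a k + ∑ i ∈ SL, v i k) = (fun k => s k + p k + E k + T' k +
        ((-1 / 2) * ∑ i ∈ RP, v i k + (-1 / 2) * ∑ i ∈ RY, v i k)) := by
      funext k
      rw [← hval (-1 / 2) k]; ring
    rw [h2]; exact h1
  · have h1 := hmid (1 / 2) (Or.inl rfl) _ hcR'
    have h2 : (fun k => a k + ∑ i ∈ SL, v i k + ∑ i ∈ RP ∪ RY, v i k) =
        (fun k => s k + p k + E k + T' k +
        ((1 / 2) * ∑ i ∈ RP, v i k + (1 / 2) * ∑ i ∈ RY, v i k)) := by
      funext k
      rw [← hval (1 / 2) k, Finset.sum_union hRd]; ring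
    rw [h2]; exact h1
  · exact inherit_bound P lv l _ _ α b hb hcR2 hαQ
  · exact mu_lt P lam lv v l S age W W' Fr T0 χ D hS I.age_le hcount
  · exact mu_lt P lam lv v l S age W W' Fr T0 _ D' hS I.age_le hcount'

end P262L
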