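import Vale.Agent.P262L.StepE

/-! P262, bound `√(d log d)`: rounding of the fractional and of the young heavy vectors. -/

set_option linter.unusedSectionVars false

namespace P262L

open Finset
open scoped Classical

variable {d : ℕ} {ι : Type}

lemma young_round (Fr Y : Finset ι) (hdis : Disjoint Fr Y) (z : ι → ℝ)
    (hz : ∀ i ∈ Fr, 0 ≤ z i ∧ z i ≤ 1) (v : ι → Fin d → ℝ)
    (hv : ∀ i, ∑ k, (v i k) ^ 2 ≤ 1) (ag : ι → ℕ)
    (Q : ℕ → Finset (Fin d)) (hQ : Monotone Q) (s : Fin d → ℝ) :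
    ∃ (χ : ι → ℝ) (E : Fin d → ℝ), (∀ i ∈ Fr ∪ Y, χ i = 0 ∨ χ i = 1) ∧
      (∀ j, |∑ i ∈ Y.filter (fun i => ag i = j), (χ i - 1 / 2)| ≤ 1 / 2) ∧
      (∀ k, E k = ∑ i ∈ Fr, (χ i - z i) * v i k + ∑ i ∈ Y, (χ i - 1 / 2) * v i k) ∧
      (∀ j, ∑ k ∈ Q j, (E k) ^ 2 ≤ 384 * (Q j).card) ∧
      ∑ k ∈ Q 0, (s k + E k) ^ 2 ≤ ∑ k ∈ Q 0, (s k) ^ 2 + 64 * (Q 0).card := by
  obtain ⟨D, U, f, hD, hU, hDU, hinj, hf, hcov, hcl⟩ := exists_pairing Y ag
  set G := Fr ∪ (D ∪ U) with hG
  set x : ι → ℝ := fun i => if i ∈ Fr then z i else 1 / 2 with hx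
  set u : ι → Fin d → ℝ := fun i k => if i ∈ D then v i k - v (f i) k else v i k with hu
  have hFrD : ∀ i ∈ Fr, i ∉ D := fun i hi h => (Finset.disjoint_left.1 hdis hi) (hD h)
  have hFrU : ∀ i ∈ Fr, i ∉ U := fun i hi h => (Finset.disjoint_left.1 hdis hi) (hU h)
  have hUD : ∀ i ∈ U, i ∉ D := fun i hi h => (Finset.disjoint_left.1 hDU h) hi
  have hDFr : ∀ i ∈ D, i ∉ Fr := fun i hi h => hFrD i h hi
  have hUFr : ∀ i ∈ U, i ∉ Fr := fun i hi h => hFrU i h hi
  have hx01 : ∀ i ∈ G, 0 ≤ x i ∧ x i ≤ 1 := by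
    intro i _
    by_cases h : i ∈ Fr
    · simp only [hx, if_pos h]; exact hz i h
    · simp only [hx, if_neg h]; norm_num
  have hu4 : ∀ i ∈ G, ∑ k, (u i k) ^ 2 ≤ 4 := by
    intro i _
    by_cases h : i ∈ D
    · simp only [hu, if_pos h]
      calc ∑ k, (v i k - v (f i) k) ^ 2 ≤ ∑ k, (2 * (v i k) ^ 2 + 2 * (v (f i) k) ^ 2) :=
            Finset.sum_le_sum fun k _ => by nlinarith [sq_nonneg (v i k + v (f i) k)]
        _ = 2 * ∑ k, (v i k) ^ 2 + 2 * ∑ k, (v (f i) k) ^ 2 := by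
            rw [Finset.sum_add_distrib, Finset.mul_sum, Finset.mul_sum]
        _ ≤ 4 := by linarith [hv i, hv (f i)]
    · simp only [hu, if_neg h]
      linarith [hv i]
  obtain ⟨y, hy1, hy2, hy3⟩ := flag_round d G x hx01 u hu4 Q hQ s
  set χ : ι → ℝ := fun i => if i ∈ G then y i else
    if h : ∃ j ∈ D, f j = i then 1 - y h.choose else 0 with hχ
  have hχG : ∀ i ∈ G, χ i = y i := fun i hi => by simp only [hχ, if_pos hi]
  have hGD : D ⊆ G := fun i hi => Finset.mem_union_right _ (Finset.mem_union_left _ hi)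
  have hGU : U ⊆ G := fun i hi => Finset.mem_union_right _ (Finset.mem_union_right _ hi)
  have hGF : Fr ⊆ G := fun i hi => Finset.mem_union_left _ hi
  have hfG : ∀ i ∈ D, f i ∉ G := by
    intro i hi h
    obtain ⟨h1, h2, h3, _⟩ := hf i hi
    rcases Finset.mem_union.1 h with h | h
    · exact (Finset.disjoint_left.1 hdis h) h1
    · rcases Finset.mem_union.1 h with h | h
      · exact h2 h
      · exact h3 h
  have hχf : ∀ i ∈ D, χ (f i) = 1 - y i := by
    intro i hi
    have hex : ∃ j ∈ D, f j = f i := ⟨i, hi, rfl⟩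
    have h1 : χ (f i) = 1 - y hex.choose := by
      simp only [hχ, if_neg (hfG i hi), dif_pos hex]
    have h2 := hex.choose_spec
    rw [h1, hinj h2.1 hi h2.2]
  have hχf' : ∀ i ∈ Y, i ∉ G → ∃ j ∈ D, f j = i := by
    intro i hi hiG
    rcases hcov i hi with h | h | h
    · exact absurd (hGD h) hiG
    · exact absurd (hGU h) hiG
    · exact h
  -- sums over `Y`
  have hYsum : ∀ φ : ι → ℝ, ∑ i ∈ Y, (χ i - 1 / 2) * φ i =
      ∑ i ∈ D, (y i - 1 / 2) * (φ i - φ (f i)) + ∑ i ∈ U, (y i - 1 / 2) * φ i := by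
    intro φ
    have hYe : Y = (D ∪ U) ∪ D.image f := by
      ext i
      rw [Finset.mem_union, Finset.mem_union, Finset.mem_image]
      constructor
      · intro hi
        rcases hcov i hi with h | h | h
        · exact Or.inl (Or.inl h)
        · exact Or.inl (Or.inr h)
        · exact Or.inr h
      · rintro ((h | h) | ⟨j, hj, h⟩)
        · exact hD h
        · exact hU h
        · rw [← h]; exact (hf j hj).1
    have hd2 : Disjoint (D ∪ U) (D.image f) := by
      rw [Finset.disjoint_right]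
      intro i hi h
      obtain ⟨j, hj, rfl⟩ := Finset.mem_image.1 hi
      exact hfG j hj (Finset.mem_union_right _ h)
    rw [hYe, Finset.sum_union hd2, Finset.sum_union hDU, Finset.sum_image hinj]
    have e1 : ∑ i ∈ D, (χ i - 1 / 2) * φ i = ∑ i ∈ D, (y i - 1 / 2) * φ i :=
      Finset.sum_congr rfl fun i hi => by rw [hχG i (hGD hi)]
    have e2 : ∑ i ∈ U, (χ i - 1 / 2) * φ i = ∑ i ∈ U, (y i - 1 / 2) * φ i :=
      Finset.sum_congr rfl fun i hi => by rw [hχG i (hGU hi)]
    have e3 : ∑ i ∈ D, (χ (f i) - 1 / 2) * φ (f i) = -∑ i ∈ D, (y i - 1 / 2) * φ (f i) := by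
      rw [← Finset.sum_neg_distrib]
      exact Finset.sum_congr rfl fun i hi => by rw [hχf i hi]; ring
    have e4 : ∑ i ∈ D, (y i - 1 / 2) * (φ i - φ (f i)) =
        ∑ i ∈ D, (y i - 1 / 2) * φ i - ∑ i ∈ D, (y i - 1 / 2) * φ (f i) := by
      rw [← Finset.sum_sub_distrib]
      exact Finset.sum_congr rfl fun i _ => by ring
    rw [e1, e2, e3, e4]; ring
  have hE : ∀ k, ∑ i ∈ G, (y i - x i) * u i k =
      ∑ i ∈ Fr, (χ i - z i) * v i k + ∑ i ∈ Y, (χ i - 1 / 2) * v i k := by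
    intro k
    have hd3 : Disjoint Fr (D ∪ U) := by
      rw [Finset.disjoint_left]
      intro i hi h
      rcases Finset.mem_union.1 h with h | h
      · exact hFrD i hi h
      · exact hFrU i hi h
    rw [hYsum (fun i => v i k), hG, Finset.sum_union hd3, Finset.sum_union hDU]
    have e1 : ∑ i ∈ Fr, (y i - x i) * u i k = ∑ i ∈ Fr, (χ i - z i) * v i k :=
      Finset.sum_congr rfl fun i hi => by
        rw [hχG i (hGF hi)]
        simp only [hx, hu, if_pos hi, if_neg (hFrD i hi)]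
    have e2 : ∑ i ∈ D, (y i - x i) * u i k = ∑ i ∈ D, (y i - 1 / 2) * (v i k - v (f i) k) :=
      Finset.sum_congr rfl fun i hi => by
        simp only [hx, hu, if_neg (hDFr i hi), if_pos hi]
    have e3 : ∑ i ∈ U, (y i - x i) * u i k = ∑ i ∈ U, (y i - 1 / 2) * v i k :=
      Finset.sum_congr rfl fun i hi => by
        simp only [hx, hu, if_neg (hUFr i hi), if_neg (hUD i hi)]
    rw [e1, e2, e3]
  refine ⟨χ, fun k => ∑ i ∈ G, (y i - x i) * u i k, ?_, ?_, hE, hy2, hy3⟩
  · intro i hi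
    by_cases h : i ∈ G
    · rw [hχG i h]; exact hy1 i h
    · have hiY : i ∈ Y := by
        rcases Finset.mem_union.1 hi with h1 | h1
        · exact absurd (hGF h1) h
        · exact h1
      obtain ⟨j, hj, hji⟩ := hχf' i hiY h
      rw [← hji, hχf j hj]
      rcases hy1 j (hGD hj) with h1 | h1
      · right; rw [h1]; ring
      · left; rw [h1]; ring
  · intro j
    have h1 : ∑ i ∈ Y.filter (fun i => ag i = j), (χ i - 1 / 2) =
        ∑ i ∈ U.filter (fun i => ag i = j), (y i - 1 / 2) := by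
      have h2 := hYsum (fun i => if ag i = j then 1 else 0)
      have e1 : ∑ i ∈ Y, (χ i - 1 / 2) * (if ag i = j then (1:ℝ) else 0) =
          ∑ i ∈ Y.filter (fun i => ag i = j), (χ i - 1 / 2) := by
        rw [Finset.sum_filter]
        exact Finset.sum_congr rfl fun i _ => by split_ifs <;> ring
      have e2 : ∑ i ∈ U, (y i - 1 / 2) * (if ag i = j then (1:ℝ) else 0) =
          ∑ i ∈ U.filter (fun i => ag i = j), (y i - 1 / 2) := by
        rw [Finset.sum_filter]
        exact Finset.sum_congr rfl fun i _ => by split_ifs <;> ring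
      have e3 : ∑ i ∈ D, (y i - 1 / 2) * ((if ag i = j then (1:ℝ) else 0) -
          (if ag (f i) = j then (1:ℝ) else 0)) = 0 := by
        apply Finset.sum_eq_zero
        intro i hi
        rw [(hf i hi).2.2.2]; ring
      rw [e1, e2, e3, zero_add] at h2
      exact h2
    rw [h1]
    by_cases hne : (U.filter (fun i => ag i = j)).Nonempty
    · obtain ⟨i0, hi0⟩ := hne
      have h3 : U.filter (fun i => ag i = j) = {i0} := by
        apply Finset.eq_singleton_iff_unique_mem.2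
        refine ⟨hi0, fun i hi => ?_⟩
        exact Finset.card_le_one.1 (hcl j) i hi i0 hi0
      rw [h3, Finset.sum_singleton]
      have hi0' := (Finset.mem_filter.1 hi0).1
      rcases hy1 i0 (hGU hi0') with h | h <;> rw [h] <;> norm_num
    · rw [Finset.not_nonempty_iff_eq_empty] at hne
      rw [hne]; norm_num

end P262L
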